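import Vale.Agent.P017.H262.Defs

/-!
# The bilinear bound (trivial large sieve for Jacobi symbols)
-/

namespace Vale.Agent.P017.H12

open Finset Vale.Agent.P017.H262

/-- the sum of a periodic function over an interval of the length of a period -/
theorem sum_Ico_period {f : ℕ → ℤ} {n : ℕ} (hf : ∀ x, f (x + n) = f x) (a : ℕ) :
    ∑ x ∈ Ico a (a + n), f x = ∑ x ∈ range n, f x := by
  induction a with
  | zero => rw [Nat.zero_add, Finset.range_eq_Ico]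
  | succ a ih =>
    rw [← ih]
    rcases Nat.eq_zero_or_pos n with rfl | hn
    · simp
    have h1 : ∑ x ∈ Ico a (a + n + 1), f x = ∑ x ∈ Ico a (a + n), f x + f (a + n) :=
      Finset.sum_Ico_succ_top (by omega) _
    have h2 : ∑ x ∈ Ico a (a + n + 1), f x = f a + ∑ x ∈ Ico (a + 1) (a + n + 1), f x :=
      Finset.sum_eq_sum_Ico_succ_bot (by omega) _
    rw [hf] at h1
    rw [show a + 1 + n = a + n + 1 by ring]
    linarith

/-- incomplete sums of a periodic function with mean zero -/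
theorem abs_sum_le {f : ℕ → ℤ} {n : ℕ} (hn : 0 < n) (hf : ∀ x, f (x + n) = f x)
    (h1 : ∀ x, |f x| ≤ 1) (h0 : ∑ x ∈ range n, f x = 0) (a : ℕ) : ∀ L : ℕ,
    |∑ x ∈ Ico a (a + L), f x| ≤ n := by
  intro L
  induction L using Nat.strong_induction_on generalizing a with
  | _ L ih =>
    by_cases hL : L < n
    · calc |∑ x ∈ Ico a (a + L), f x| ≤ ∑ x ∈ Ico a (a + L), |f x| :=
          Finset.abs_sum_le_sum_abs _ _
        _ ≤ ∑ _x ∈ Ico a (a + L), 1 := Finset.sum_le_sum fun x _ => h1 x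
        _ = (L : ℤ) := by simp
        _ ≤ n := by exact_mod_cast hL.le
    · push Not at hL
      have h2 : ∑ x ∈ Ico a (a + L), f x = ∑ x ∈ Ico a (a + n), f x +
          ∑ x ∈ Ico (a + n) (a + n + (L - n)), f x := by
        rw [show a + n + (L - n) = a + L by omega]
        exact (Finset.sum_Ico_consecutive _ (by omega) (by omega)).symm
      rw [h2, sum_Ico_period hf, h0, zero_add]
      exact ih (L - n) (by omega) (a + n)

theorem sum_J_prime {y : ℕ} [NeZero y] (hy : y.Prime) (hy2 : y ≠ 2) :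
    ∑ x : ZMod y, jacobiSym (x.val : ℕ) y = 0 := by
  have : Fact y.Prime := ⟨hy⟩
  have h := quadraticChar_sum_zero (F := ZMod y) (by rwa [ZMod.ringChar_zmod_n])
  rw [← h]
  refine Finset.sum_congr rfl fun x _ => ?_
  rw [← jacobiSym.legendreSym.to_jacobiSym, legendreSym]
  simp

/-- complete sums vanish -/
theorem sum_J_mul {y y' : ℕ} (hy : y.Prime) (hy' : y'.Prime) (hne : y ≠ y') (hy2 : y ≠ 2) :
    ∑ x ∈ range (y * y'), jacobiSym (x : ℕ) y * jacobiSym (x : ℕ) y' = 0 := by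
  have hcop : Nat.Coprime y y' := (Nat.coprime_primes hy hy').2 hne
  have : NeZero y := ⟨hy.ne_zero⟩
  have : NeZero y' := ⟨hy'.ne_zero⟩
  have : NeZero (y * y') := ⟨mul_ne_zero hy.ne_zero hy'.ne_zero⟩
  have e := ZMod.chineseRemainder hcop
  have h1 : ∑ x ∈ range (y * y'), jacobiSym (x : ℕ) y * jacobiSym (x : ℕ) y' =
      ∑ x : ZMod (y * y'), jacobiSym (x.val : ℕ) y * jacobiSym (x.val : ℕ) y' := by
    refine (Finset.sum_bij' (fun (x : ZMod (y * y')) _ => x.val)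
      (fun x _ => (x : ZMod (y * y'))) ?_ ?_ ?_ ?_ ?_).symm
    · intro x _; exact Finset.mem_range.2 (ZMod.val_lt x)
    · intro x _; exact Finset.mem_univ _
    · intro x _; simp
    · intro x hx; exact ZMod.val_cast_of_lt (Finset.mem_range.1 hx)
    · intro x _; rfl
  rw [h1]
  have h2 : ∀ x : ZMod (y * y'), jacobiSym (x.val : ℕ) y * jacobiSym (x.val : ℕ) y' =
      jacobiSym ((e x).1.val : ℕ) y * jacobiSym ((e x).2.val : ℕ) y' := by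
    intro x
    have h3 : (e x).1 = (x.val : ZMod y) := by
      have : e x = e ((x.val : ℕ) : ZMod (y * y')) := by rw [ZMod.natCast_zmod_val]
      rw [this, map_natCast]; rfl
    have h4 : (e x).2 = (x.val : ZMod y') := by
      have : e x = e ((x.val : ℕ) : ZMod (y * y')) := by rw [ZMod.natCast_zmod_val]
      rw [this, map_natCast]; rfl
    rw [h3, h4, ZMod.val_natCast, ZMod.val_natCast]
    congr 1
    · rw [jacobiSym.mod_left]; norm_cast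
    · rw [jacobiSym.mod_left]; norm_cast
  rw [Finset.sum_congr rfl fun x _ => h2 x]
  have h5 := Equiv.sum_comp e.toEquiv
    (fun z : ZMod y × ZMod y' => jacobiSym (z.1.val : ℕ) y * jacobiSym (z.2.val : ℕ) y')
  have h6 : ∑ x, jacobiSym ((e x).1.val : ℕ) y * jacobiSym ((e x).2.val : ℕ) y' =
      ∑ z : ZMod y × ZMod y', jacobiSym (z.1.val : ℕ) y * jacobiSym (z.2.val : ℕ) y' := h5
  rw [h6, Fintype.sum_prod_type]
  simp only [← Finset.mul_sum]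
  rw [← Finset.sum_mul, sum_J_prime hy hy2, zero_mul]

theorem abs_J (a : ℤ) (b : ℕ) : |jacobiSym a b| ≤ 1 := by
  rcases jacobiSym.trichotomy a b with h | h | h <;> rw [h] <;> simp

theorem abs_J' (a : ℤ) (b : ℕ) : |(jacobiSym a b : ℝ)| ≤ 1 := by
  exact_mod_cast abs_J a b

theorem J_add (x y n : ℕ) (h : y ∣ n) : jacobiSym ((x + n : ℕ) : ℤ) y = jacobiSym (x : ℕ) y := by
  apply jacobiSym.mod_left'
  push_cast
  obtain ⟨c, rfl⟩ := h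
  push_cast
  simp

theorem incomplete {y y' : ℕ} (hy : y.Prime) (hy' : y'.Prime) (hne : y ≠ y') (hy2 : y ≠ 2)
    (a L : ℕ) : |∑ x ∈ Ico a (a + L), jacobiSym (x : ℕ) y * jacobiSym (x : ℕ) y'| ≤
      ((y * y' : ℕ) : ℤ) := by
  refine abs_sum_le (Nat.mul_pos hy.pos hy'.pos) (fun x => ?_) (fun x => ?_)
    (sum_J_mul hy hy' hne hy2) a L
  · rw [J_add x y _ (Dvd.intro _ rfl), J_add x y' _ (Dvd.intro_left _ rfl)]
  · rw [abs_mul]
    exact mul_le_one₀ (abs_J _ _) (abs_nonneg _) (abs_J _ _)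

theorem card_PB (j : ℕ) : ((PB j).card : ℝ) ≤ 2 ^ j := by
  have : (PB j).card ≤ 2 ^ j := by
    unfold PB
    refine (Finset.card_filter_le _ _).trans ?_
    rw [Nat.card_Ico, pow_succ]
    omega
  exact_mod_cast this

theorem mem_PB {j p : ℕ} (h : p ∈ PB j) : 2 ^ j ≤ p ∧ p < 2 ^ (j + 1) ∧ p.Prime ∧ p % 60 = 1 := by
  simp only [PB, Finset.mem_filter, Finset.mem_Ico] at h
  exact ⟨h.1.1, h.1.2, h.2.1, h.2.2⟩

/-- **bilinear bound** -/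
theorem bil {j₁ j₂ : ℕ} (h : 4 * j₂ ≤ j₁) (α β : ℕ → ℝ) (hα : ∀ x, |α x| ≤ 1)
    (hβ : ∀ y, |β y| ≤ 1) :
    |∑ x ∈ PB j₁, ∑ y ∈ PB j₂, α x * β y * (jacobiSym (x : ℕ) y : ℝ)| ≤
      3 * (2 : ℝ) ^ j₁ * (2 : ℝ) ^ ((j₂ : ℝ) / 2) := by
  set c : ℕ → ℝ := fun x => ∑ y ∈ PB j₂, β y * (jacobiSym (x : ℕ) y : ℝ) with hc
  have h1 : ∑ x ∈ PB j₁, ∑ y ∈ PB j₂, α x * β y * (jacobiSym (x : ℕ) y : ℝ) =
      ∑ x ∈ PB j₁, α x * c x := by
    refine Finset.sum_congr rfl fun x _ => ?_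
    rw [hc, Finset.mul_sum]
    exact Finset.sum_congr rfl fun y _ => by ring
  rw [h1]
  have hCS := Finset.sum_mul_sq_le_sq_mul_sq (PB j₁) α c
  have h2 : ∑ x ∈ PB j₁, α x ^ 2 ≤ 2 ^ j₁ := by
    calc ∑ x ∈ PB j₁, α x ^ 2 ≤ ∑ _x ∈ PB j₁, (1 : ℝ) :=
        Finset.sum_le_sum fun x _ => by
          rw [← sq_abs]; exact pow_le_one₀ (abs_nonneg _) (hα x)
      _ = ((PB j₁).card : ℝ) := by simp
      _ ≤ 2 ^ j₁ := card_PB j₁
  have h3 : ∑ x ∈ PB j₁, c x ^ 2 ≤ ∑ x ∈ Ico (2 ^ j₁) (2 ^ j₁ + 2 ^ j₁), c x ^ 2 := by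
    refine Finset.sum_le_sum_of_subset_of_nonneg ?_ fun x _ _ => sq_nonneg _
    intro x hx
    obtain ⟨a, b, _⟩ := mem_PB hx
    rw [Finset.mem_Ico]
    exact ⟨a, by rw [pow_succ] at b; omega⟩
  have h4 : ∑ x ∈ Ico (2 ^ j₁) (2 ^ j₁ + 2 ^ j₁), c x ^ 2 =
      ∑ y ∈ PB j₂, ∑ y' ∈ PB j₂, β y * β y' *
        ((∑ x ∈ Ico (2 ^ j₁) (2 ^ j₁ + 2 ^ j₁),
          jacobiSym (x : ℕ) y * jacobiSym (x : ℕ) y' : ℤ) : ℝ) := by
    simp only [hc, sq, Finset.sum_mul_sum]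
    rw [Finset.sum_comm]
    refine Finset.sum_congr rfl fun y _ => ?_
    rw [Finset.sum_comm]
    refine Finset.sum_congr rfl fun y' _ => ?_
    push_cast
    rw [Finset.mul_sum]
    exact Finset.sum_congr rfl fun x _ => by ring
  have h5 : ∀ y ∈ PB j₂, ∀ y' ∈ PB j₂, β y * β y' *
        ((∑ x ∈ Ico (2 ^ j₁) (2 ^ j₁ + 2 ^ j₁),
          jacobiSym (x : ℕ) y * jacobiSym (x : ℕ) y' : ℤ) : ℝ) ≤
        (if y = y' then (2 : ℝ) ^ j₁ else 0) + 4 * (2 ^ j₂) ^ 2 := by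
    intro y hy y' hy'
    have hββ : |β y * β y'| ≤ 1 := by
      rw [abs_mul]; exact mul_le_one₀ (hβ y) (abs_nonneg _) (hβ y')
    have hle : β y * β y' * ((∑ x ∈ Ico (2 ^ j₁) (2 ^ j₁ + 2 ^ j₁),
          jacobiSym (x : ℕ) y * jacobiSym (x : ℕ) y' : ℤ) : ℝ) ≤
        |((∑ x ∈ Ico (2 ^ j₁) (2 ^ j₁ + 2 ^ j₁),
          jacobiSym (x : ℕ) y * jacobiSym (x : ℕ) y' : ℤ) : ℝ)| := by
      refine (le_abs_self _).trans ?_
      rw [abs_mul]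
      exact mul_le_of_le_one_left (abs_nonneg _) hββ
    refine hle.trans ?_
    obtain ⟨_, hy1, hyp, hy60⟩ := mem_PB hy
    obtain ⟨_, hy1', hyp', _⟩ := mem_PB hy'
    by_cases hyy : y = y'
    · rw [if_pos hyy]
      have : |(∑ x ∈ Ico (2 ^ j₁) (2 ^ j₁ + 2 ^ j₁),
          jacobiSym (x : ℕ) y * jacobiSym (x : ℕ) y' : ℤ)| ≤ 2 ^ j₁ := by
        calc |(∑ x ∈ Ico (2 ^ j₁) (2 ^ j₁ + 2 ^ j₁),
            jacobiSym (x : ℕ) y * jacobiSym (x : ℕ) y' : ℤ)| ≤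
            ∑ x ∈ Ico (2 ^ j₁) (2 ^ j₁ + 2 ^ j₁),
              |jacobiSym (x : ℕ) y * jacobiSym (x : ℕ) y'| := Finset.abs_sum_le_sum_abs _ _
          _ ≤ ∑ _x ∈ Ico (2 ^ j₁) (2 ^ j₁ + 2 ^ j₁), (1 : ℤ) :=
            Finset.sum_le_sum fun x _ => by
              rw [abs_mul]; exact mul_le_one₀ (abs_J _ _) (abs_nonneg _) (abs_J _ _)
          _ = 2 ^ j₁ := by simp
      have h6 : |((∑ x ∈ Ico (2 ^ j₁) (2 ^ j₁ + 2 ^ j₁),
          jacobiSym (x : ℕ) y * jacobiSym (x : ℕ) y' : ℤ) : ℝ)| ≤ 2 ^ j₁ := by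
        exact_mod_cast this
      have : (0 : ℝ) ≤ 4 * (2 ^ j₂) ^ 2 := by positivity
      linarith
    · rw [if_neg hyy, zero_add]
      have h7 := incomplete hyp hyp' hyy (by rintro rfl; norm_num at hy60) (2 ^ j₁) (2 ^ j₁)
      have h8 : (y * y' : ℕ) ≤ 4 * (2 ^ j₂) ^ 2 := by
        calc y * y' ≤ 2 ^ (j₂ + 1) * 2 ^ (j₂ + 1) := Nat.mul_le_mul hy1.le hy1'.le
          _ = 4 * (2 ^ j₂) ^ 2 := by ring
      calc |((∑ x ∈ Ico (2 ^ j₁) (2 ^ j₁ + 2 ^ j₁),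
          jacobiSym (x : ℕ) y * jacobiSym (x : ℕ) y' : ℤ) : ℝ)| ≤ ((y * y' : ℕ) : ℝ) := by
            exact_mod_cast h7
        _ ≤ 4 * (2 ^ j₂) ^ 2 := by exact_mod_cast h8
  have h9 : ∑ x ∈ Ico (2 ^ j₁) (2 ^ j₁ + 2 ^ j₁), c x ^ 2 ≤
      2 ^ j₂ * 2 ^ j₁ + (2 ^ j₂) ^ 2 * (4 * (2 ^ j₂) ^ 2) := by
    rw [h4]
    calc _ ≤ ∑ y ∈ PB j₂, ∑ y' ∈ PB j₂,
          ((if y = y' then (2 : ℝ) ^ j₁ else 0) + 4 * (2 ^ j₂) ^ 2) :=
          Finset.sum_le_sum fun y hy => Finset.sum_le_sum fun y' hy' => h5 y hy y' hy'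
      _ = ((PB j₂).card : ℝ) * 2 ^ j₁ + ((PB j₂).card : ℝ) ^ 2 * (4 * (2 ^ j₂) ^ 2) := by
          simp only [Finset.sum_add_distrib, Finset.sum_ite_eq, Finset.sum_const, nsmul_eq_mul]
          rw [Finset.sum_ite_mem, Finset.inter_self, Finset.sum_const, nsmul_eq_mul]
          ring
      _ ≤ _ := by
          have := card_PB j₂
          gcongr
  have h10 : ((2 : ℝ) ^ j₂) ^ 4 ≤ 2 ^ j₁ := by
    rw [← pow_mul]
    exact pow_le_pow_right₀ (by norm_num) (by omega)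
  have hA : (1 : ℝ) ≤ 2 ^ j₂ := one_le_pow₀ (by norm_num)
  have h11 : ∑ x ∈ Ico (2 ^ j₁) (2 ^ j₁ + 2 ^ j₁), c x ^ 2 ≤ 5 * 2 ^ j₂ * 2 ^ j₁ := by
    refine h9.trans ?_
    have : (2 : ℝ) ^ j₁ ≤ 2 ^ j₂ * 2 ^ j₁ := le_mul_of_one_le_left (by positivity) hA
    nlinarith
  have h12 : (∑ x ∈ PB j₁, α x * c x) ^ 2 ≤ (3 * (2 : ℝ) ^ j₁ * (2 : ℝ) ^ ((j₂ : ℝ) / 2)) ^ 2 := by
    have hr : ((2 : ℝ) ^ ((j₂ : ℝ) / 2)) ^ 2 = 2 ^ j₂ := by
      rw [← Real.rpow_natCast, ← Real.rpow_mul (by norm_num)]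
      norm_num
    calc (∑ x ∈ PB j₁, α x * c x) ^ 2 ≤ (∑ x ∈ PB j₁, α x ^ 2) * ∑ x ∈ PB j₁, c x ^ 2 := hCS
      _ ≤ 2 ^ j₁ * (5 * 2 ^ j₂ * 2 ^ j₁) := by
          have h13 : (0 : ℝ) ≤ ∑ x ∈ PB j₁, c x ^ 2 := Finset.sum_nonneg fun x _ => sq_nonneg _
          have := h3.trans h11
          gcongr
      _ ≤ (3 * (2 : ℝ) ^ j₁ * (2 : ℝ) ^ ((j₂ : ℝ) / 2)) ^ 2 := by
          rw [mul_pow, mul_pow, hr]
          have : (0 : ℝ) ≤ (2 ^ j₁) ^ 2 * 2 ^ j₂ := by positivity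
          nlinarith
  exact abs_le_of_sq_le_sq h12 (by positivity)

end Vale.Agent.P017.H12
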