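import Vale.Agent.P017.H12.Bil

/-!
# Equidistribution of the mutual symbols
-/

namespace Vale.Agent.P017.H12

open Finset Function Vale.Agent.P017.H262

variable {k : ℕ}

/-- isolate one coordinate of a sum over a box -/
theorem sum_pi_isolate (s : Fin k → Finset ℕ) (l : Fin k) (g : (Fin k → ℕ) → ℝ) :
    ∑ p ∈ Fintype.piFinset s, g p =
      ∑ p ∈ Fintype.piFinset (update s l {0}), ∑ x ∈ s l, g (update p l x) := by
  rw [← Finset.sum_product']
  refine Finset.sum_bij' (fun p _ => (update p l 0, p l)) (fun z _ => update z.1 l z.2)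
    ?_ ?_ ?_ ?_ ?_
  · intro p hp
    rw [Finset.mem_product, Fintype.mem_piFinset]
    rw [Fintype.mem_piFinset] at hp
    refine ⟨fun i => ?_, hp l⟩
    by_cases h : i = l
    · subst h; simp
    · simp [h, hp i]
  · intro z hz
    rw [Finset.mem_product, Fintype.mem_piFinset] at hz
    rw [Fintype.mem_piFinset]
    intro i
    by_cases h : i = l
    · subst h; simpa using hz.2
    · have := hz.1 i
      simpa [h] using this
  · intro p _
    simp
  · intro z hz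
    rw [Finset.mem_product, Fintype.mem_piFinset] at hz
    have h0 := hz.1 l
    simp only [update_self, Finset.mem_singleton] at h0
    refine Prod.ext ?_ (by simp)
    funext i
    by_cases h : i = l
    · subst h; simp [h0]
    · simp [h]
  · intro p _
    simp

/-- the base point with two coordinates replaced -/
def pxy (p : Fin k → ℕ) (l₁ l₂ : Fin k) (x y : ℕ) : Fin k → ℕ := update (update p l₂ y) l₁ x

theorem pxy_1 (p : Fin k → ℕ) (l₁ l₂ : Fin k) (x y : ℕ) : pxy p l₁ l₂ x y l₁ = x := by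
  simp [pxy]

theorem pxy_2 (p : Fin k → ℕ) {l₁ l₂ : Fin k} (h : l₁ ≠ l₂) (x y : ℕ) :
    pxy p l₁ l₂ x y l₂ = y := by
  simp [pxy, h.symm]

theorem pxy_ne1 (p : Fin k → ℕ) {l₁ l₂ i : Fin k} (h : i ≠ l₁) (x x' y : ℕ) :
    pxy p l₁ l₂ x y i = pxy p l₁ l₂ x' y i := by
  simp [pxy, h]

theorem pxy_ne2 (p : Fin k → ℕ) {l₁ l₂ i : Fin k} (h : i ≠ l₂) (x y y' : ℕ) :
    pxy p l₁ l₂ x y i = pxy p l₁ l₂ x y' i := by
  by_cases h1 : i = l₁
  · subst h1; simp [pxy]
  · simp [pxy, h, h1]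

/-- the pairs -/
def prs (k : ℕ) : Finset (Fin k × Fin k) := univ.filter fun e => e.1 < e.2

theorem card_prs (k : ℕ) : (prs k).card = k * (k - 1) / 2 := by
  rw [← Finset.sum_range_id]
  unfold prs
  rw [Finset.card_filter, Fintype.sum_prod_type_right, Finset.sum_range]
  refine Finset.sum_congr rfl fun i _ => ?_
  rw [← Finset.card_filter]
  have : (univ.filter fun x : Fin k => x < i) = Finset.Iio i := by ext; simp
  rw [this, Fin.card_Iio]

/-- the mutual symbol -/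
def Jm (p : Fin k → ℕ) (e : Fin k × Fin k) : ℝ := (jacobiSym (p e.1) (p e.2) : ℝ)

theorem abs_Jm (p : Fin k → ℕ) (e : Fin k × Fin k) : |Jm p e| ≤ 1 := abs_J' _ _

theorem abs_prod_le {α : Type*} (s : Finset α) (f : α → ℝ) (h : ∀ i ∈ s, |f i| ≤ 1) :
    |∏ i ∈ s, f i| ≤ 1 := by
  rw [Finset.abs_prod]
  exact Finset.prod_le_one (fun i _ => abs_nonneg _) h

/-- the pattern of a number -/
def pat (m : ℕ) (x : ℕ) : m.primeFactors → ℤ := fun q => jacobiSym (x : ℕ) (q : ℕ)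

/-- all patterns -/
def Pat (m : ℕ) : Finset (m.primeFactors → ℤ) := Fintype.piFinset fun _ => {-1, 0, 1}

theorem pat_mem (m x : ℕ) : pat m x ∈ Pat m := by
  rw [Pat, Fintype.mem_piFinset]
  intro q
  rcases jacobiSym.trichotomy (x : ℕ) (q : ℕ) with h | h | h <;> simp [pat, h]

theorem card_Pat (m : ℕ) (hm : 0 < m) : ((Pat m).card : ℝ) ^ 2 ≤ (m : ℝ) ^ 4 := by
  have h1 : (Pat m).card = 3 ^ m.primeFactors.card := by
    rw [Pat, Fintype.card_piFinset]
    simp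
  rw [h1]
  have h2 : 3 ^ m.primeFactors.card ≤ (∏ q ∈ m.primeFactors, q) ^ 2 := by
    rw [← Finset.prod_pow, ← Finset.prod_const]
    refine Finset.prod_le_prod (fun _ _ => by norm_num) fun q hq => ?_
    have := (Nat.prime_of_mem_primeFactors hq).two_le
    nlinarith
  have h3 : ∏ q ∈ m.primeFactors, q ≤ m := Nat.le_of_dvd hm (Nat.prod_primeFactors_dvd m)
  have h4 : 3 ^ m.primeFactors.card ≤ m ^ 2 := h2.trans (Nat.pow_le_pow_left h3 2)
  have h5 : ((3 ^ m.primeFactors.card : ℕ) : ℝ) ≤ (m : ℝ) ^ 2 := by exact_mod_cast h4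
  calc ((3 ^ m.primeFactors.card : ℕ) : ℝ) ^ 2 ≤ ((m : ℝ) ^ 2) ^ 2 := by gcongr
    _ = (m : ℝ) ^ 4 := by ring

section block
variable {m : ℕ} {F : (Fin k → ℕ) → ℝ} {l₁ l₂ : Fin k} {j₁ j₂ : ℕ}

theorem F_rep (hF : ∀ p p', SamePat m p p' → F p = F p') (hl : l₁ < l₂) (p : Fin k → ℕ)
    (x y : ℕ) : F (pxy p l₁ l₂ x y) =
      F (pxy p l₁ l₂ (invFun (pat m) (pat m x)) (invFun (pat m) (pat m y))) := by
  have hx : pat m (invFun (pat m) (pat m x)) = pat m x := invFun_eq ⟨x, rfl⟩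
  have hy : pat m (invFun (pat m) (pat m y)) = pat m y := invFun_eq ⟨y, rfl⟩
  apply hF
  intro l q hq
  by_cases h1 : l = l₁
  · subst h1
    rw [pxy_1, pxy_1]
    exact (congrFun hx ⟨q, hq⟩).symm
  · by_cases h2 : l = l₂
    · subst h2
      rw [pxy_2 _ hl.ne, pxy_2 _ hl.ne]
      exact (congrFun hy ⟨q, hq⟩).symm
    · rw [pxy_ne1 p h1 _ (invFun (pat m) (pat m x)), pxy_ne2 p h2]

/-- factorization of the product of the mutual symbols -/
theorem J_factor (hl : l₁ < l₂) (p : Fin k → ℕ) {E : Finset (Fin k × Fin k)} (hE : E ⊆ prs k)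
    (he : (l₁, l₂) ∈ E) : ∃ u v : ℕ → ℝ, (∀ x, |u x| ≤ 1) ∧ (∀ y, |v y| ≤ 1) ∧ ∀ x y,
      ∏ e ∈ E, Jm (pxy p l₁ l₂ x y) e = u x * v y * (jacobiSym (x : ℕ) y : ℝ) := by
  classical
  refine ⟨fun x => ∏ e ∈ E.erase (l₁, l₂),
      (if e.1 = l₁ ∨ e.2 = l₁ then Jm (pxy p l₁ l₂ x 0) e else 1),
    fun y => ∏ e ∈ E.erase (l₁, l₂),
      (if e.1 = l₁ ∨ e.2 = l₁ then 1 else Jm (pxy p l₁ l₂ 0 y) e), ?_, ?_, ?_⟩
  · intro x
    refine abs_prod_le _ _ fun e _ => ?_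
    split_ifs
    · exact abs_Jm _ _
    · simp
  · intro x
    refine abs_prod_le _ _ fun e _ => ?_
    split_ifs
    · simp
    · exact abs_Jm _ _
  · intro x y
    rw [← Finset.mul_prod_erase E _ he, ← Finset.prod_mul_distrib, mul_comm]
    congr 1
    · refine Finset.prod_congr rfl fun e hee => ?_
      obtain ⟨hne, heE⟩ := Finset.mem_erase.1 hee
      have hlt : e.1 < e.2 := (Finset.mem_filter.1 (hE heE)).2
      split_ifs with h
      · rw [mul_one]
        have h1 : e.1 ≠ l₂ := by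
          rcases h with h | h
          · rw [h]; exact hl.ne
          · exact (hlt.trans (h ▸ hl)).ne
        have h2 : e.2 ≠ l₂ := by
          rcases h with h | h
          · intro h'; exact hne (Prod.ext h h')
          · rw [h]; exact hl.ne
        unfold Jm
        rw [pxy_ne2 p h1 x y 0, pxy_ne2 p h2 x y 0]
      · rw [one_mul]
        push Not at h
        unfold Jm
        rw [pxy_ne1 p h.1 x 0 y, pxy_ne1 p h.2 x 0 y]
    · unfold Jm
      simp only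
      rw [pxy_1, pxy_2 _ hl.ne]

/-- the bound for the inner double sum -/
theorem inner (hF : ∀ p p', SamePat m p p' → F p = F p') (hF1 : ∀ p, |F p| ≤ 1) (hl : l₁ < l₂)
    (hj : 4 * j₂ ≤ j₁) (p : Fin k → ℕ) {E : Finset (Fin k × Fin k)} (hE : E ⊆ prs k)
    (he : (l₁, l₂) ∈ E) :
    |∑ y ∈ PB j₂, ∑ x ∈ PB j₁, F (pxy p l₁ l₂ x y) * ∏ e ∈ E, Jm (pxy p l₁ l₂ x y) e| ≤
      ((Pat m).card : ℝ) ^ 2 * (3 * (2 : ℝ) ^ j₁ * (2 : ℝ) ^ ((j₂ : ℝ) / 2)) := by
  classical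
  obtain ⟨u, v, hu, hv, huv⟩ := J_factor hl p hE he
  set ρ : (m.primeFactors → ℤ) → ℕ := invFun (pat m) with hρ
  have h1 : ∑ y ∈ PB j₂, ∑ x ∈ PB j₁, F (pxy p l₁ l₂ x y) * ∏ e ∈ E, Jm (pxy p l₁ l₂ x y) e =
      ∑ π ∈ Pat m, ∑ π' ∈ Pat m, F (pxy p l₁ l₂ (ρ π) (ρ π')) *
        ∑ x ∈ PB j₁, ∑ y ∈ PB j₂, ((if pat m x = π then 1 else 0) * u x) *
          ((if pat m y = π' then 1 else 0) * v y) * (jacobiSym (x : ℕ) y : ℝ) := by
    rw [Finset.sum_comm]
    simp only [Finset.mul_sum]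
    have h2 : ∀ x ∈ PB j₁, ∀ y ∈ PB j₂,
        F (pxy p l₁ l₂ x y) * ∏ e ∈ E, Jm (pxy p l₁ l₂ x y) e =
        ∑ π ∈ Pat m, ∑ π' ∈ Pat m, F (pxy p l₁ l₂ (ρ π) (ρ π')) *
          (((if pat m x = π then 1 else 0) * u x) *
          ((if pat m y = π' then 1 else 0) * v y) * (jacobiSym (x : ℕ) y : ℝ)) := by
      intro x _ y _
      rw [Finset.sum_eq_single_of_mem (pat m x) (pat_mem m x),
        Finset.sum_eq_single_of_mem (pat m y) (pat_mem m y)]
      · rw [if_pos rfl, if_pos rfl, one_mul, one_mul, huv, F_rep hF hl p x y]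
      · intro π' _ h
        rw [if_neg h.symm]; ring
      · intro π _ h
        apply Finset.sum_eq_zero
        intro π' _
        rw [if_neg h.symm]; ring
    rw [Finset.sum_congr rfl fun x hx => Finset.sum_congr rfl fun y hy => h2 x hx y hy]
    rw [Finset.sum_congr rfl fun x _ => Finset.sum_comm, Finset.sum_comm]
    refine Finset.sum_congr rfl fun π _ => ?_
    rw [Finset.sum_congr rfl fun x _ => Finset.sum_comm, Finset.sum_comm]
  rw [h1]
  calc _ ≤ ∑ π ∈ Pat m, ∑ π' ∈ Pat m, (3 * (2 : ℝ) ^ j₁ * (2 : ℝ) ^ ((j₂ : ℝ) / 2)) := by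
        refine (Finset.abs_sum_le_sum_abs _ _).trans (Finset.sum_le_sum fun π _ => ?_)
        refine (Finset.abs_sum_le_sum_abs _ _).trans (Finset.sum_le_sum fun π' _ => ?_)
        rw [abs_mul]
        refine (mul_le_of_le_one_left (abs_nonneg _) (hF1 _)).trans ?_
        refine bil hj (fun x => (if pat m x = π then 1 else 0) * u x)
          (fun y => (if pat m y = π' then 1 else 0) * v y) (fun x => ?_) (fun y => ?_)
        · split_ifs
          · rw [one_mul]; exact hu x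
          · simp
        · split_ifs
          · rw [one_mul]; exact hv y
          · simp
    _ = _ := by
        simp only [Finset.sum_const, nsmul_eq_mul]
        ring

end block

/-- the error term for one set of pairs -/
theorem outer {m : ℕ} {F : (Fin k → ℕ) → ℝ} (hm : 0 < m) (j : Fin k → ℕ)
    (hF : ∀ p p', SamePat m p p' → F p = F p') (hF1 : ∀ p, |F p| ≤ 1)
    (hj : ∀ l l', l < l' → 4 * j l' ≤ j l) (hmj : ∀ l, m ^ 10 ≤ 2 ^ j l)
    {E : Finset (Fin k × Fin k)} (hE : E ⊆ prs k) (hne : E.Nonempty) :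
    |∑ p ∈ Fintype.piFinset (fun l => PB (j l)), F p * ∏ e ∈ E, Jm p e| ≤
      3 * (∏ l, (2 : ℝ) ^ j l) * ∑ l, (2 : ℝ) ^ (-(j l : ℝ) / 10) := by
  classical
  obtain ⟨⟨l₁, l₂⟩, he⟩ := hne
  have hl : l₁ < l₂ := (Finset.mem_filter.1 (hE he)).2
  set s : Fin k → Finset ℕ := fun l => PB (j l) with hs
  rw [sum_pi_isolate s l₁, sum_pi_isolate _ l₂]
  set s' := update (update s l₁ {0}) l₂ {0} with hs'
  have hsl : update s l₁ {0} l₂ = PB (j l₂) := by simp [hl.ne', hs]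
  rw [hsl]
  set B : ℝ := ((Pat m).card : ℝ) ^ 2 * (3 * (2 : ℝ) ^ j l₁ * (2 : ℝ) ^ ((j l₂ : ℝ) / 2)) with hB
  have h1 : |∑ p ∈ Fintype.piFinset s', ∑ y ∈ PB (j l₂), ∑ x ∈ s l₁,
      (F (update (update p l₂ y) l₁ x) * ∏ e ∈ E, Jm (update (update p l₂ y) l₁ x) e)| ≤
      ((Fintype.piFinset s').card : ℝ) * B := by
    calc _ ≤ ∑ _p ∈ Fintype.piFinset s', B := by
          refine (Finset.abs_sum_le_sum_abs _ _).trans (Finset.sum_le_sum fun p _ => ?_)
          exact inner hF hF1 hl (hj _ _ hl) p hE he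
      _ = _ := by rw [Finset.sum_const, nsmul_eq_mul]
  refine h1.trans ?_
  -- the number of base points
  have h2 : ((Fintype.piFinset s').card : ℝ) * ((2 : ℝ) ^ j l₁ * (2 : ℝ) ^ j l₂) ≤
      ∏ l, (2 : ℝ) ^ j l := by
    rw [Fintype.card_piFinset]
    have hmem2 : l₂ ∈ (univ.erase l₁ : Finset (Fin k)) := by simp [hl.ne']
    rw [← Finset.mul_prod_erase univ (fun l => (2 : ℝ) ^ j l) (Finset.mem_univ l₁),
      ← Finset.mul_prod_erase (univ.erase l₁) (fun l => (2 : ℝ) ^ j l) hmem2]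
    push_cast
    rw [← Finset.mul_prod_erase univ (fun l => ((s' l).card : ℝ)) (Finset.mem_univ l₁),
      ← Finset.mul_prod_erase (univ.erase l₁) (fun l => ((s' l).card : ℝ)) hmem2]
    have h3 : (s' l₁).card = 1 := by simp [hs', hl.ne]
    have h4 : (s' l₂).card = 1 := by simp [hs']
    rw [h3, h4]
    have h5 : ∏ l ∈ (univ.erase l₁).erase l₂, ((s' l).card : ℝ) ≤
        ∏ l ∈ (univ.erase l₁).erase l₂, (2 : ℝ) ^ j l := by
      refine Finset.prod_le_prod (fun _ _ => by positivity) fun l hl' => ?_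
      obtain ⟨hl2, hl'⟩ := Finset.mem_erase.1 hl'
      have hl1 := (Finset.mem_erase.1 hl').1
      have : s' l = PB (j l) := by simp [hs', hs, hl1, hl2]
      rw [this]
      exact card_PB _
    calc _ = (∏ l ∈ (univ.erase l₁).erase l₂, ((s' l).card : ℝ)) *
          ((2 : ℝ) ^ j l₁ * (2 : ℝ) ^ j l₂) := by push_cast; ring
      _ ≤ (∏ l ∈ (univ.erase l₁).erase l₂, (2 : ℝ) ^ j l) *
          ((2 : ℝ) ^ j l₁ * (2 : ℝ) ^ j l₂) := by gcongr
      _ = _ := by ring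
  -- the number of patterns
  have h6 : ((Pat m).card : ℝ) ^ 2 * (2 : ℝ) ^ ((j l₂ : ℝ) / 2) ≤
      (2 : ℝ) ^ j l₂ * (2 : ℝ) ^ (-(j l₂ : ℝ) / 10) := by
    have h7 : (m : ℝ) ^ 4 ≤ (2 : ℝ) ^ ((j l₂ : ℝ) * (4 / 10)) := by
      have h8 : (m : ℝ) ^ 10 ≤ (2 : ℝ) ^ j l₂ := by exact_mod_cast hmj l₂
      have h9 : ((m : ℝ) ^ (10 : ℕ)) ^ ((4 : ℝ) / 10) ≤ ((2 : ℝ) ^ j l₂) ^ ((4 : ℝ) / 10) :=
        Real.rpow_le_rpow (by positivity) h8 (by norm_num)
      rw [← Real.rpow_natCast (m : ℝ) 10, ← Real.rpow_mul (by positivity),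
        ← Real.rpow_natCast (2 : ℝ), ← Real.rpow_mul (by norm_num)] at h9
      have h10 : ((10 : ℕ) : ℝ) * (4 / 10) = ((4 : ℕ) : ℝ) := by norm_num
      rw [h10, Real.rpow_natCast] at h9
      exact h9
    calc ((Pat m).card : ℝ) ^ 2 * (2 : ℝ) ^ ((j l₂ : ℝ) / 2) ≤
        (2 : ℝ) ^ ((j l₂ : ℝ) * (4 / 10)) * (2 : ℝ) ^ ((j l₂ : ℝ) / 2) := by
          have := (card_Pat m hm).trans h7
          gcongr
      _ = (2 : ℝ) ^ j l₂ * (2 : ℝ) ^ (-(j l₂ : ℝ) / 10) := by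
          rw [← Real.rpow_natCast (2 : ℝ), ← Real.rpow_add (by norm_num),
            ← Real.rpow_add (by norm_num)]
          congr 1
          ring
  have h11 : (2 : ℝ) ^ (-(j l₂ : ℝ) / 10) ≤ ∑ l, (2 : ℝ) ^ (-(j l : ℝ) / 10) :=
    Finset.single_le_sum (f := fun l => (2 : ℝ) ^ (-(j l : ℝ) / 10))
      (fun l _ => by positivity) (Finset.mem_univ l₂)
  calc ((Fintype.piFinset s').card : ℝ) * B = 3 * (((Fintype.piFinset s').card : ℝ) *
        (2 : ℝ) ^ j l₁ * (((Pat m).card : ℝ) ^ 2 * (2 : ℝ) ^ ((j l₂ : ℝ) / 2))) := by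
          rw [hB]; ring
    _ ≤ 3 * (((Fintype.piFinset s').card : ℝ) *
        (2 : ℝ) ^ j l₁ * ((2 : ℝ) ^ j l₂ * (2 : ℝ) ^ (-(j l₂ : ℝ) / 10))) := by gcongr
    _ = 3 * (((Fintype.piFinset s').card : ℝ) * ((2 : ℝ) ^ j l₁ * (2 : ℝ) ^ j l₂)) *
        (2 : ℝ) ^ (-(j l₂ : ℝ) / 10) := by ring
    _ ≤ 3 * (∏ l, (2 : ℝ) ^ j l) * ∑ l, (2 : ℝ) ^ (-(j l : ℝ) / 10) := by
        have : (0 : ℝ) ≤ (2 : ℝ) ^ (-(j l₂ : ℝ) / 10) := by positivity
        gcongr

/-- primes from separated ranges are distinct -/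
theorem J_pm {j : Fin k → ℕ} (hj : ∀ l l', l < l' → 4 * j l' ≤ j l) {p : Fin k → ℕ}
    (hp : p ∈ Fintype.piFinset fun l => PB (j l)) {l l' : Fin k} (hl : l < l') :
    jacobiSym (p l) (p l') = 1 ∨ jacobiSym (p l) (p l') = -1 := by
  rw [Fintype.mem_piFinset] at hp
  obtain ⟨h1, _, hpl, _⟩ := mem_PB (hp l)
  obtain ⟨h2, h3, hpl', _⟩ := mem_PB (hp l')
  have h4 : j l' ≠ 0 := by
    intro h0
    rw [h0] at h3
    have := hpl'.two_le
    omega
  have h5 : j l' + 1 ≤ j l := by have := hj l l' hl; omega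
  have h6 : 2 ^ (j l' + 1) ≤ 2 ^ j l := Nat.pow_le_pow_right (by norm_num) h5
  apply jacobiSym.eq_one_or_neg_one
  rw [Int.gcd_natCast_natCast]
  exact (Nat.coprime_primes hpl hpl').2 (by omega)

open Classical in
/-- **[D]** equidistribution of the mutual symbols (with the error term as intended) -/
def BitsStmt' : Prop := ∀ k : ℕ, ∃ C : ℝ, ∀ (m : ℕ) (j : Fin k → ℕ), 0 < k → 0 < m →
  (∀ l l', l < l' → 4 * j l' ≤ j l) → (∀ l, m ^ 10 ≤ 2 ^ j l) →
  ∀ (Φ : (Fin k → ℕ) → Prop) (b : (Fin k → ℕ) → Fin k → Fin k → ℤ),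
    (∀ p p', SamePat m p p' → (Φ p ↔ Φ p') ∧ b p = b p') →
    (∀ p l l', b p l l' = 1 ∨ b p l l' = -1) →
    (1 / 2 : ℝ) ^ (k * (k - 1) / 2) *
        (((Fintype.piFinset fun l => PB (j l)).filter Φ).card : ℝ) -
      C * (∏ l, (2 : ℝ) ^ j l) * ∑ l, (2 : ℝ) ^ (-(j l : ℝ) / 10) ≤
    (((Fintype.piFinset fun l => PB (j l)).filter (fun p => Φ p ∧ ∀ l l', l < l' →
      jacobiSym (p l) (p l') = b p l l')).card : ℝ)

/-- **[D]** -/
theorem bits : BitsStmt' := by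
  classical
  intro k
  refine ⟨3, ?_⟩
  intro m j hk hm hj hmj Φ b hinv hb
  set S := Fintype.piFinset fun l => PB (j l) with hS
  set Err : ℝ := 3 * (∏ l, (2 : ℝ) ^ j l) * ∑ l, (2 : ℝ) ^ (-(j l : ℝ) / 10) with hErr
  -- the expansion
  have h1 : (((S.filter (fun p => Φ p ∧ ∀ l l', l < l' →
      jacobiSym (p l) (p l') = b p l l')).card : ℕ) : ℝ) =
      (1 / 2 : ℝ) ^ (k * (k - 1) / 2) * ∑ E ∈ (prs k).powerset,
        ∑ p ∈ S, ((if Φ p then 1 else 0) * ∏ e ∈ E, (b p e.1 e.2 : ℝ)) * ∏ e ∈ E, Jm p e := by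
    rw [Finset.sum_comm, Finset.mul_sum, Finset.card_filter]
    push_cast
    refine Finset.sum_congr rfl fun p hp => ?_
    have h2 : (1 / 2 : ℝ) ^ (k * (k - 1) / 2) * ∑ E ∈ (prs k).powerset,
        ((if Φ p then 1 else 0) * ∏ e ∈ E, (b p e.1 e.2 : ℝ)) * ∏ e ∈ E, Jm p e =
        (if Φ p then 1 else 0) * ∏ e ∈ prs k, (1 / 2 * (1 + (b p e.1 e.2 : ℝ) * Jm p e)) := by
      rw [Finset.prod_mul_distrib, Finset.prod_const, card_prs, Finset.prod_one_add,
        mul_left_comm]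
      congr 1
      rw [Finset.mul_sum]
      refine Finset.sum_congr rfl fun E _ => ?_
      rw [Finset.prod_mul_distrib, mul_assoc]
    rw [h2]
    by_cases hΦ : Φ p
    · simp only [hΦ, true_and, if_true, one_mul]
      by_cases hall : ∀ l l', l < l' → jacobiSym (p l) (p l') = b p l l'
      · rw [if_pos hall]
        symm
        apply Finset.prod_eq_one
        intro e he
        have := hall e.1 e.2 (Finset.mem_filter.1 he).2
        unfold Jm
        rw [this]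
        rcases hb p e.1 e.2 with h | h <;> rw [h] <;> norm_num
      · rw [if_neg hall]
        push Not at hall
        obtain ⟨l, l', hl, hne⟩ := hall
        symm
        apply Finset.prod_eq_zero (i := (l, l')) (by simp [prs, hl])
        unfold Jm
        simp only
        rcases hb p l l' with h | h <;> rcases J_pm hj hp hl with h' | h' <;>
          rw [h, h'] at hne ⊢ <;> first | exact absurd rfl hne | norm_num
    · simp [hΦ]
  rw [h1]
  -- the main term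
  have h3 : ∑ p ∈ S, ((if Φ p then 1 else 0) * ∏ e ∈ (∅ : Finset (Fin k × Fin k)),
      (b p e.1 e.2 : ℝ)) * ∏ e ∈ (∅ : Finset (Fin k × Fin k)), Jm p e =
      ((S.filter Φ).card : ℝ) := by
    rw [Finset.card_filter]; push_cast
    simp
  have h4 : ∀ E ∈ (prs k).powerset.erase ∅, -Err ≤
      ∑ p ∈ S, ((if Φ p then 1 else 0) * ∏ e ∈ E, (b p e.1 e.2 : ℝ)) * ∏ e ∈ E, Jm p e := by
    intro E hE
    obtain ⟨hne, hE⟩ := Finset.mem_erase.1 hE
    rw [Finset.mem_powerset] at hE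
    refine (abs_le.1 (outer (F := fun p => (if Φ p then 1 else 0) * ∏ e ∈ E, (b p e.1 e.2 : ℝ))
      hm j ?_ ?_ hj hmj hE (Finset.nonempty_iff_ne_empty.2 hne))).1
    · intro p p' hpp
      obtain ⟨h5, h6⟩ := hinv p p' hpp
      simp only [h5, h6]
    · intro p
      rw [abs_mul]
      refine mul_le_one₀ ?_ (abs_nonneg _) (abs_prod_le _ _ fun e _ => ?_)
      · split_ifs <;> simp
      · rcases hb p e.1 e.2 with h | h <;> rw [h] <;> simp
  have h5 : ((S.filter Φ).card : ℝ) - 2 ^ (k * (k - 1) / 2) * Err ≤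
      ∑ E ∈ (prs k).powerset,
        ∑ p ∈ S, ((if Φ p then 1 else 0) * ∏ e ∈ E, (b p e.1 e.2 : ℝ)) * ∏ e ∈ E, Jm p e := by
    rw [← Finset.add_sum_erase _ _ (Finset.empty_mem_powerset (prs k)), h3, sub_eq_add_neg]
    gcongr
    have hErr0 : 0 ≤ Err := by positivity
    calc -(2 ^ (k * (k - 1) / 2) * Err) ≤ ∑ _E ∈ (prs k).powerset.erase ∅, -Err := by
          rw [Finset.sum_const, nsmul_eq_mul, mul_neg, neg_le_neg_iff]
          gcongr
          have : ((prs k).powerset.erase ∅).card ≤ 2 ^ (k * (k - 1) / 2) := by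
            refine (Finset.card_erase_le).trans ?_
            rw [Finset.card_powerset, card_prs]
          exact_mod_cast this
      _ ≤ _ := Finset.sum_le_sum h4
  have h6 : (1 / 2 : ℝ) ^ (k * (k - 1) / 2) * (((S.filter Φ).card : ℝ) -
      2 ^ (k * (k - 1) / 2) * Err) = (1 / 2 : ℝ) ^ (k * (k - 1) / 2) *
      ((S.filter Φ).card : ℝ) - Err := by
    rw [mul_sub, ← mul_assoc, ← mul_pow]
    norm_num
  calc _ = (1 / 2 : ℝ) ^ (k * (k - 1) / 2) * (((S.filter Φ).card : ℝ) -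
      2 ^ (k * (k - 1) / 2) * Err) := by rw [h6]
    _ ≤ _ := by gcongr

end Vale.Agent.P017.H12
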