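import Vale.Agent.P017.H12.Lin
import Vale.Agent.P017.H262.Defs

/-!
# Flipping the mutual symbols: Jacobi symbols
-/

namespace Vale.Agent.P017.H12

open Finset Matrix Vale.Agent.P017.H262

/-- the additive form of a sign -/
def chi (x : ℤ) : ZMod 2 := if x = 1 then 0 else 1

theorem chi_one : chi 1 = 0 := rfl

theorem chi_eq_zero {x : ℤ} : chi x = 0 ↔ x = 1 := by
  unfold chi; split_ifs with h <;> simp [h]

theorem chi_mul {x y : ℤ} (hx : x = 1 ∨ x = -1) (hy : y = 1 ∨ y = -1) :
    chi (x * y) = chi x + chi y := by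
  rcases hx with rfl | rfl <;> rcases hy with rfl | rfl <;> decide

theorem sign_mul {x y : ℤ} (hx : x = 1 ∨ x = -1) (hy : y = 1 ∨ y = -1) :
    x * y = 1 ∨ x * y = -1 := by
  rcases hx with rfl | rfl <;> rcases hy with rfl | rfl <;> decide

theorem sign_prod {α : Type*} (s : Finset α) (f : α → ℤ) (h : ∀ i ∈ s, f i = 1 ∨ f i = -1) :
    (∏ i ∈ s, f i = 1 ∨ ∏ i ∈ s, f i = -1) := by
  classical
  induction s using Finset.induction_on with
  | empty => simp
  | insert a s ha ih =>
    rw [Finset.prod_insert ha]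
    exact sign_mul (h a (Finset.mem_insert_self a s))
      (ih fun i hi => h i (Finset.mem_insert_of_mem hi))

theorem chi_prod {α : Type*} (s : Finset α) (f : α → ℤ) (h : ∀ i ∈ s, f i = 1 ∨ f i = -1) :
    chi (∏ i ∈ s, f i) = ∑ i ∈ s, chi (f i) := by
  classical
  induction s using Finset.induction_on with
  | empty => simp [chi_one]
  | insert a s ha ih =>
    rw [Finset.prod_insert ha, Finset.sum_insert ha,
      chi_mul (h a (Finset.mem_insert_self a s))
        (sign_prod s f fun i hi => h i (Finset.mem_insert_of_mem hi)),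
      ih fun i hi => h i (Finset.mem_insert_of_mem hi)]

theorem J_prod_left {α : Type*} (s : Finset α) (f : α → ℕ) (n : ℕ) :
    jacobiSym ((∏ i ∈ s, f i : ℕ) : ℤ) n = ∏ i ∈ s, jacobiSym (f i) n := by
  classical
  induction s using Finset.induction_on with
  | empty => simp
  | insert a s ha ih =>
    rw [Finset.prod_insert ha, Finset.prod_insert ha, Nat.cast_mul, jacobiSym.mul_left, ih]

theorem J_prod_right {α : Type*} (s : Finset α) (f : α → ℕ) (a : ℤ) (hf : ∀ i ∈ s, f i ≠ 0) :
    jacobiSym a (∏ i ∈ s, f i) = ∏ i ∈ s, jacobiSym a (f i) := by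
  classical
  induction s using Finset.induction_on with
  | empty => simp
  | insert b s hb ih =>
    rw [Finset.prod_insert hb, Finset.prod_insert hb, jacobiSym.mul_right' a
      (hf b (Finset.mem_insert_self b s))
      (Finset.prod_ne_zero_iff.2 fun i hi => hf i (Finset.mem_insert_of_mem hi)),
      ih fun i hi => hf i (Finset.mem_insert_of_mem hi)]

theorem J_sign {p q : ℕ} (hp : p.Prime) (hq : q.Prime) (h : p ≠ q) :
    jacobiSym p q = 1 ∨ jacobiSym p q = -1 := by
  apply jacobiSym.eq_one_or_neg_one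
  rw [Int.gcd_natCast_natCast]
  exact (Nat.coprime_primes hp hq).2 h

/-- the symbols relative to `m` -/
def S0 {k : ℕ} (m : ℕ) (p : Fin k → ℕ) :
    (m.primeFactors ⊕ Fin k) → (m.primeFactors ⊕ Fin k) → ZMod 2
  | Sum.inl q, Sum.inl q' => chi (jacobiSym (q' : ℕ) (q : ℕ))
  | Sum.inl q, Sum.inr l => chi (jacobiSym (p l) (q : ℕ))
  | Sum.inr l, Sum.inl q => chi (jacobiSym (p l) (q : ℕ))
  | Sum.inr _, Sum.inr _ => 0


section
variable {k m : ℕ}

/-- the divisor of `m` given by a vector -/
def dv (m : ℕ) (v : m.primeFactors → ZMod 2) : ℕ :=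
  ∏ q ∈ univ.filter (fun q : m.primeFactors => v q = 1), (q : ℕ)

/-- the complementary divisor of `m` -/
def dc (m : ℕ) (v : m.primeFactors → ZMod 2) : ℕ :=
  ∏ q ∈ univ.filter (fun q : m.primeFactors => ¬ v q = 1), (q : ℕ)

theorem prod_pf (hm : Squarefree m) : ∏ q : m.primeFactors, (q : ℕ) = m := by
  have := Finset.prod_coe_sort m.primeFactors (fun q => q)
  rw [this]
  exact Nat.prod_primeFactors_of_squarefree hm

theorem dv_mul_dc (hm : Squarefree m) (v : m.primeFactors → ZMod 2) :
    dv m v * dc m v = m := by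
  unfold dv dc
  rw [Finset.prod_filter_mul_prod_filter_not]
  exact prod_pf hm

theorem dv_ne_zero (hm : Squarefree m) (v : m.primeFactors → ZMod 2) : dv m v ≠ 0 := by
  intro h
  have := dv_mul_dc hm v
  rw [h, zero_mul] at this
  exact hm.ne_zero this.symm

theorem div_dv (hm : Squarefree m) (v : m.primeFactors → ZMod 2) : m / dv m v = dc m v := by
  exact Nat.div_eq_of_eq_mul_right (Nat.pos_of_ne_zero (dv_ne_zero hm v)) (dv_mul_dc hm v).symm

theorem mem_pf_prod {s : Finset m.primeFactors} {q : ℕ} :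
    q ∈ (∏ x ∈ s, (x : ℕ)).primeFactors ↔ ∃ h : q ∈ m.primeFactors, (⟨q, h⟩ : m.primeFactors) ∈ s := by
  have hne : ∏ x ∈ s, (x : ℕ) ≠ 0 :=
    Finset.prod_ne_zero_iff.2 fun i _ => (Nat.prime_of_mem_primeFactors i.2).ne_zero
  constructor
  · intro h
    obtain ⟨hq, hd, _⟩ := Nat.mem_primeFactors.1 h
    obtain ⟨x, hx, hqx⟩ := (Prime.dvd_finsetProd_iff hq.prime _).1 hd
    have hqx' := (Nat.prime_dvd_prime_iff_eq hq (Nat.prime_of_mem_primeFactors x.2)).1 hqx
    subst hqx'
    exact ⟨x.2, hx⟩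
  · rintro ⟨h, hs⟩
    refine Nat.mem_primeFactors.2 ⟨Nat.prime_of_mem_primeFactors h, ?_, hne⟩
    exact Finset.dvd_prod_of_mem (fun x : m.primeFactors => (x : ℕ)) hs

theorem mem_pf_dv {v : m.primeFactors → ZMod 2} {q : ℕ} :
    q ∈ (dv m v).primeFactors ↔ ∃ h : q ∈ m.primeFactors, v ⟨q, h⟩ = 1 := by
  unfold dv
  rw [mem_pf_prod]
  simp

theorem mem_pf_dc {v : m.primeFactors → ZMod 2} {q : ℕ} :
    q ∈ (dc m v).primeFactors ↔ ∃ h : q ∈ m.primeFactors, ¬ v ⟨q, h⟩ = 1 := by
  unfold dc
  rw [mem_pf_prod]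
  simp

theorem dv_eq_one {v : m.primeFactors → ZMod 2} (h : dv m v = 1) : v = 0 := by
  funext q
  rcases z2_cases (v q) with h' | h'
  · exact h'
  · exfalso
    have : (q : ℕ) ∈ (dv m v).primeFactors := mem_pf_dv.2 ⟨q.2, h'⟩
    rw [h] at this
    simp at this

theorem sum_mul_eq {α : Type*} [Fintype α] (c v : α → ZMod 2) :
    ∑ q, c q * v q = ∑ q ∈ univ.filter (fun q => v q = 1), c q := by
  rw [Finset.sum_filter]
  refine Finset.sum_congr rfl fun q _ => ?_
  rcases z2_cases (v q) with h | h <;> simp [h]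

theorem sum_mul_eq2 {α : Type*} [Fintype α] (c v : α → ZMod 2) :
    ∑ q, v q * c q = ∑ q ∈ univ.filter (fun q => v q = 1), c q := by
  rw [← sum_mul_eq]
  exact Finset.sum_congr rfl fun q _ => mul_comm _ _

theorem sum_mul_eq' {α : Type*} [Fintype α] (c v : α → ZMod 2) :
    ∑ q, c q * (v q + 1) = ∑ q ∈ univ.filter (fun q => ¬ v q = 1), c q := by
  rw [Finset.sum_filter]
  refine Finset.sum_congr rfl fun q _ => ?_
  rcases z2_cases (v q) with h | h
  · simp [h]
  · simp only [h, not_true_eq_false, if_false]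
    have : (1 : ZMod 2) + 1 = 0 := by decide
    rw [this, mul_zero]

theorem odd_of_mod {m : ℕ} (h : m % 4 = 3) : Odd m := Nat.odd_iff.2 (by omega)

theorem ne_large {p : Fin k → ℕ} (hp : Adm m p) (l : Fin k) (q : m.primeFactors) :
    p l ≠ (q : ℕ) := by
  intro h
  exact hp.ndvd l (h ▸ Nat.dvd_of_mem_primeFactors q.2)

theorem J_large {p : Fin k → ℕ} (hp : Adm m p) (l : Fin k) (q : m.primeFactors) :
    jacobiSym (p l) (q : ℕ) = 1 ∨ jacobiSym (p l) (q : ℕ) = -1 :=
  J_sign (hp.prime l) (Nat.prime_of_mem_primeFactors q.2) (ne_large hp l q)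

theorem J_small {q q' : m.primeFactors} (h : q ≠ q') :
    jacobiSym (q : ℕ) (q' : ℕ) = 1 ∨ jacobiSym (q : ℕ) (q' : ℕ) = -1 :=
  J_sign (Nat.prime_of_mem_primeFactors q.2) (Nat.prime_of_mem_primeFactors q'.2)
    fun h' => h (Subtype.ext h')

/-- no vector of the right kernel is supported on `m` -/
theorem hR {p : Fin k → ℕ} (hm : Squarefree m) (hp : Adm m p) (hg : Good m p)
    (β : Fin k → Fin k → ZMod 2) (x : m.primeFactors ⊕ Fin k → ZMod 2)
    (hx : R (S (S0 m p) β) *ᵥ x = 0) (h0 : ∀ l, x (Sum.inr l) = 0) : x = 0 := by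
  obtain ⟨v, hv⟩ : ∃ v : m.primeFactors → ZMod 2, ∀ q, x (Sum.inl q) = v q :=
    ⟨_, fun _ => rfl⟩
  have hv0 : v = 0 := by
    by_contra hne
    have hd : dv m v ∈ m.divisors :=
      Nat.mem_divisors.2 ⟨Dvd.intro _ (dv_mul_dc hm v), hm.ne_zero⟩
    refine (hg (dv m v) hd fun h => hne (dv_eq_one h)).1 ⟨?_, ?_, ?_⟩
    · intro l
      have h1 := congrFun hx (Sum.inr l)
      rw [R_mulVec] at h1
      simp only [Fintype.sum_sum_type, h0, S, S0, add_zero, mul_zero, Finset.sum_const_zero,
        Pi.zero_apply, hv] at h1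
      rw [sum_mul_eq, ← chi_prod _ _ fun q _ => J_large hp l q] at h1
      unfold dv
      rw [J_prod_right _ _ _ fun i _ => (Nat.prime_of_mem_primeFactors i.2).ne_zero]
      exact chi_eq_zero.1 h1
    · intro q hq
      rw [div_dv hm, mem_pf_dc] at hq
      obtain ⟨hq, hvq⟩ := hq
      have hvq0 : v ⟨q, hq⟩ = 0 := (z2_cases _).resolve_right hvq
      have h1 := congrFun hx (Sum.inl ⟨q, hq⟩)
      rw [R_mulVec] at h1
      simp only [Fintype.sum_sum_type, h0, S, S0, hv, hvq0, add_zero, mul_zero,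
        Finset.sum_const_zero, Pi.zero_apply] at h1
      rw [sum_mul_eq, ← chi_prod] at h1
      · unfold dv
        rw [J_prod_left]
        exact chi_eq_zero.1 h1
      · intro q' hq'
        refine J_small (q' := ⟨q, hq⟩) ?_
        rintro rfl
        exact hvq (Finset.mem_filter.1 hq').2
    · intro q hq
      obtain ⟨hq, hvq⟩ := mem_pf_dv.1 hq
      have h1 := congrFun hx (Sum.inl ⟨q, hq⟩)
      rw [R_mulVec] at h1
      simp only [Fintype.sum_sum_type, h0, S, S0, hv, hvq, zero_add, mul_one, Pi.zero_apply] at h1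
      rw [sum_mul_eq', ← chi_prod, ← chi_prod, ← chi_mul] at h1
      · rw [div_dv hm, Nat.cast_mul, jacobiSym.mul_left, J_prod_left, dc, J_prod_left, mul_comm]
        exact chi_eq_zero.1 h1
      · exact sign_prod _ _ fun q' hq' => J_small (q' := ⟨q, hq⟩) (by
          rintro rfl
          exact (Finset.mem_filter.1 hq').2 hvq)
      · exact sign_prod _ _ fun l _ => J_large hp l ⟨q, hq⟩
      · intro l _
        exact J_large hp l ⟨q, hq⟩
      · intro q' hq'
        refine J_small (q' := ⟨q, hq⟩) ?_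
        rintro rfl
        exact (Finset.mem_filter.1 hq').2 hvq
  funext i
  rcases i with q | l
  · rw [hv, hv0]; rfl
  · exact h0 l

/-- no vector of the left kernel is supported on `m` -/
theorem hL {p : Fin k → ℕ} (hm : Squarefree m) (hp : Adm m p) (hg : Good m p)
    (β : Fin k → Fin k → ZMod 2) (x : m.primeFactors ⊕ Fin k → ZMod 2)
    (hx : x ᵥ* R (S (S0 m p) β) = 0) (h0 : ∀ l, x (Sum.inr l) = 0) : x = 0 := by
  obtain ⟨v, hv⟩ : ∃ v : m.primeFactors → ZMod 2, ∀ q, x (Sum.inl q) = v q :=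
    ⟨_, fun _ => rfl⟩
  have hv0 : v = 0 := by
    by_contra hne
    have hd : dv m v ∈ m.divisors :=
      Nat.mem_divisors.2 ⟨Dvd.intro _ (dv_mul_dc hm v), hm.ne_zero⟩
    refine (hg (dv m v) hd fun h => hne (dv_eq_one h)).2 ⟨?_, ?_, ?_⟩
    · intro l
      have h1 := congrFun hx (Sum.inr l)
      rw [vecMul_R] at h1
      simp only [Fintype.sum_sum_type, h0, S, S0, add_zero, zero_mul, Finset.sum_const_zero,
        Pi.zero_apply, hv] at h1
      rw [sum_mul_eq2, ← chi_prod _ _ fun q _ => J_large hp l q] at h1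
      unfold dv
      rw [J_prod_right _ _ _ fun i _ => (Nat.prime_of_mem_primeFactors i.2).ne_zero]
      exact chi_eq_zero.1 h1
    · intro q hq
      rw [div_dv hm, mem_pf_dc] at hq
      obtain ⟨hq, hvq⟩ := hq
      have hvq0 : v ⟨q, hq⟩ = 0 := (z2_cases _).resolve_right hvq
      have h1 := congrFun hx (Sum.inl ⟨q, hq⟩)
      rw [vecMul_R] at h1
      simp only [Fintype.sum_sum_type, h0, S, S0, hv, hvq0, add_zero, zero_mul,
        Finset.sum_const_zero, Pi.zero_apply] at h1
      rw [sum_mul_eq2, ← chi_prod] at h1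
      · unfold dv
        rw [J_prod_right _ _ _ fun i _ => (Nat.prime_of_mem_primeFactors i.2).ne_zero]
        exact chi_eq_zero.1 h1
      · intro q' hq'
        refine J_small (q := ⟨q, hq⟩) ?_
        rintro rfl
        exact hvq (Finset.mem_filter.1 hq').2
    · intro q hq
      obtain ⟨hq, hvq⟩ := mem_pf_dv.1 hq
      have h1 := congrFun hx (Sum.inl ⟨q, hq⟩)
      rw [vecMul_R] at h1
      simp only [Fintype.sum_sum_type, h0, S, S0, hv, hvq, add_zero, zero_mul,
        Finset.sum_const_zero, one_mul, Pi.zero_apply] at h1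
      rw [sum_mul_eq2] at h1
      have hmem : (⟨q, hq⟩ : m.primeFactors) ∈
          univ.filter (fun q : m.primeFactors => v q = 1) := by simpa using hvq
      rw [← Finset.add_sum_erase _ _ hmem,
        ← Finset.add_sum_erase univ (fun q' : m.primeFactors => chi (jacobiSym (q' : ℕ) q))
          (Finset.mem_univ ⟨q, hq⟩)] at h1
      have h2 : ∑ q' ∈ (univ.filter (fun q : m.primeFactors => v q = 1)).erase ⟨q, hq⟩,
          chi (jacobiSym q (q' : ℕ)) + (∑ q' ∈ univ.erase (⟨q, hq⟩ : m.primeFactors),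
          chi (jacobiSym (q' : ℕ) q) + ∑ l, chi (jacobiSym (p l) q)) = 0 := by
        rw [← h1]
        have := z2_self (chi (jacobiSym q q))
        linear_combination (exp := 1) -this
      rw [← chi_prod, ← chi_prod, ← chi_prod, ← chi_mul, ← chi_mul] at h2
      · have h3 := chi_eq_zero.1 h2
        have hqp := Nat.prime_of_mem_primeFactors hq
        have hm' : m / q = ∏ q' ∈ univ.erase (⟨q, hq⟩ : m.primeFactors), (q' : ℕ) := by
          conv_lhs => rw [← prod_pf hm]
          rw [← Finset.mul_prod_erase univ (fun q : m.primeFactors => (q : ℕ))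
            (Finset.mem_univ ⟨q, hq⟩)]
          exact Nat.mul_div_cancel_left _ hqp.pos
        have ha' : dv m v / q = ∏ q' ∈ (univ.filter (fun q : m.primeFactors => v q = 1)).erase
            ⟨q, hq⟩, (q' : ℕ) := by
          unfold dv
          rw [← Finset.mul_prod_erase _ (fun q : m.primeFactors => (q : ℕ)) hmem]
          exact Nat.mul_div_cancel_left _ hqp.pos
        rw [hm', ha', Nat.cast_mul, jacobiSym.mul_left, J_prod_left, J_prod_left,
          J_prod_right _ _ _ fun i _ => (Nat.prime_of_mem_primeFactors i.2).ne_zero]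
        rw [← h3]; ring
      all_goals
        have hs1 : ∀ q' ∈ (univ.filter (fun q : m.primeFactors => v q = 1)).erase ⟨q, hq⟩,
            jacobiSym q (q' : ℕ) = 1 ∨ jacobiSym q (q' : ℕ) = -1 := fun q' hq' =>
          J_small (q := ⟨q, hq⟩) (Finset.mem_erase.1 hq').1.symm
        have hs2 : ∀ q' ∈ univ.erase (⟨q, hq⟩ : m.primeFactors),
            jacobiSym (q' : ℕ) q = 1 ∨ jacobiSym (q' : ℕ) q = -1 := fun q' hq' =>
          J_small (q' := ⟨q, hq⟩) (Finset.mem_erase.1 hq').1
        have hs3 : ∀ l ∈ (univ : Finset (Fin k)),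
            jacobiSym (p l) q = 1 ∨ jacobiSym (p l) q = -1 := fun l _ => J_large hp l ⟨q, hq⟩
      · exact sign_prod _ _ hs1
      · exact sign_mul (sign_prod _ _ hs2) (sign_prod _ _ hs3)
      · exact sign_prod _ _ hs2
      · exact sign_prod _ _ hs3
      · exact hs3
      · exact hs2
      · exact hs1
  funext i
  rcases i with q | l
  · rw [hv, hv0]; rfl
  · exact h0 l

/-- the prime factors of `m * ∏ p l` -/
def PP (m : ℕ) (p : Fin k → ℕ) : m.primeFactors ⊕ Fin k → ℕ
  | Sum.inl q => (q : ℕ)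
  | Sum.inr l => p l

theorem PP_prime {p : Fin k → ℕ} (hp : Adm m p) (i : m.primeFactors ⊕ Fin k) :
    (PP m p i).Prime := by
  rcases i with q | l
  · exact Nat.prime_of_mem_primeFactors q.2
  · exact hp.prime l

theorem PP_inj {p : Fin k → ℕ} (hp : Adm m p) : Function.Injective (PP m p) := by
  rintro (q | l) (q' | l') h
  · exact congrArg Sum.inl (Subtype.ext h)
  · exact absurd h.symm (ne_large hp l' q)
  · exact absurd h (ne_large hp l q')
  · exact congrArg Sum.inr (hp.inj h)

theorem prod_PP (hm : Squarefree m) (p : Fin k → ℕ) : ∏ i, PP m p i = m * ∏ l, p l := by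
  rw [Fintype.prod_sum_type]
  simp only [PP]
  rw [prod_pf hm]

theorem sqf_PP (hm : Squarefree m) {p : Fin k → ℕ} (hp : Adm m p) :
    Squarefree (m * ∏ l, p l) := by
  rw [← prod_PP hm]
  refine Finset.squarefree_prod_of_pairwise_isCoprime (fun i _ j _ hij => ?_)
    fun i _ => (PP_prime hp i).prime.squarefree
  exact Nat.coprime_iff_isRelPrime.1
    ((Nat.coprime_primes (PP_prime hp i) (PP_prime hp j)).2 fun h => hij (PP_inj hp h))

/-- a divisor is the product of its primes -/
theorem dvd_eq_prod (hm : Squarefree m) {p : Fin k → ℕ} (hp : Adm m p) {a : ℕ}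
    (ha : a ∣ m * ∏ l, p l) : a = ∏ i ∈ univ.filter (fun i => PP m p i ∣ a), PP m p i := by
  have hsq := sqf_PP hm hp
  have hasq : Squarefree a := hsq.squarefree_of_dvd ha
  have himg : a.primeFactors = (univ.filter (fun i => PP m p i ∣ a)).image (PP m p) := by
    ext q
    simp only [Nat.mem_primeFactors, Finset.mem_image, Finset.mem_filter, Finset.mem_univ,
      true_and]
    constructor
    · rintro ⟨hq, hqa, _⟩
      have h1 : q ∣ ∏ i, PP m p i := by rw [prod_PP hm]; exact hqa.trans ha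
      obtain ⟨i, _, hi⟩ := (Prime.dvd_finsetProd_iff hq.prime _).1 h1
      have h2 := (Nat.prime_dvd_prime_iff_eq hq (PP_prime hp i)).1 hi
      exact ⟨i, h2 ▸ hqa, h2.symm⟩
    · rintro ⟨i, hi, rfl⟩
      exact ⟨PP_prime hp i, hi, hasq.ne_zero⟩
  conv_lhs => rw [← Nat.prod_primeFactors_of_squarefree hasq, himg]
  rw [Finset.prod_image fun i _ j _ h => PP_inj hp h]

theorem div_eq_prod (hm : Squarefree m) {p : Fin k → ℕ} (hp : Adm m p) {a : ℕ}
    (ha : a ∣ m * ∏ l, p l) :
    (m * ∏ l, p l) / a = ∏ i ∈ univ.filter (fun i => ¬ PP m p i ∣ a), PP m p i := by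
  have h0 : a ≠ 0 := ne_zero_of_dvd_ne_zero (sqf_PP hm hp).ne_zero ha
  refine Nat.div_eq_of_eq_mul_right (Nat.pos_of_ne_zero h0) ?_
  conv_rhs => rw [dvd_eq_prod hm hp ha]
  rw [← prod_PP hm p]
  have h1 : ∀ i, (PP m p i ∣ ∏ i ∈ univ.filter (fun i => PP m p i ∣ a), PP m p i) ↔
      PP m p i ∣ a := fun i => by rw [← dvd_eq_prod hm hp ha]
  simp only [h1]
  rw [Finset.prod_filter_mul_prod_filter_not]

theorem J_of_isSquare {a q : ℕ} (hq : q.Prime) (hqa : ¬ q ∣ a)
    (h : IsSquare (a : ZMod q)) : jacobiSym a q = 1 := by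
  have : Fact q.Prime := ⟨hq⟩
  have h1 : jacobiSym a q ≠ -1 := by
    intro h2
    have := ZMod.nonsquare_iff_jacobiSym_eq_neg_one.1 h2
    push_cast at this
    exact this h
  refine (jacobiSym.eq_one_or_neg_one ?_).resolve_right h1
  rw [Int.gcd_natCast_natCast]
  exact ((Nat.Prime.coprime_iff_not_dvd hq).2 hqa).symm

/-- **[A]** -/
theorem flip : FlipStmt := by
  intro k m p₀ hk hm hm4 hp₀ hg
  obtain ⟨β, hsym, hker⟩ := flip_core hk (S0 m p₀) (hR hm hp₀ hg) (hL hm hp₀ hg)
  refine ⟨fun l l' => if β l l' = 0 then 1 else -1, fun l l' => ?_, ?_⟩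
  · by_cases h : β l l' = 0 <;> simp [h]
  intro p hp hpat hb a ha hcond
  have hchi : ∀ l l', l ≠ l' → β l l' = chi (jacobiSym (p l') (p l)) := by
    have key : ∀ l l', l < l' → chi (jacobiSym (p l) (p l')) = β l l' := by
      intro l l' hlt
      rw [hb l l' hlt]
      rcases z2_cases (β l l') with h | h
      · simp [h, chi]
      · simp [h, chi]
    intro l l' hne
    rcases lt_or_gt_of_ne hne with h | h
    · rw [jacobiSym.quadratic_reciprocity_one_mod_four (hp.four l')
        (Nat.odd_iff.2 (by have := hp.four l; omega))]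
      exact (key l l' h).symm
    · rw [hsym]
      exact (key l' l h).symm
  have hS : ∀ i j, i ≠ j → S (S0 m p₀) β i j = chi (jacobiSym (PP m p j) (PP m p i)) := by
    rintro (q | l) (q' | l') hne
    · rfl
    · simp only [S, S0, PP]
      rw [hpat l' q q.2]
    · simp only [S, S0, PP]
      rw [← hpat l q' q'.2, jacobiSym.quadratic_reciprocity_one_mod_four (hp.four l)
        (Odd.of_dvd_nat (odd_of_mod hm4) (Nat.dvd_of_mem_primeFactors q'.2))]
    · exact hchi l l' fun h => hne (congrArg Sum.inr h)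
  have hsgn : ∀ i j, i ≠ j → jacobiSym (PP m p j) (PP m p i) = 1 ∨
      jacobiSym (PP m p j) (PP m p i) = -1 := fun i j hne =>
    J_sign (PP_prime hp j) (PP_prime hp i) fun h => hne (PP_inj hp h).symm
  let x : m.primeFactors ⊕ Fin k → ZMod 2 := fun i => if PP m p i ∣ a then 1 else 0
  have hx1 : ∀ i, x i = 1 ↔ PP m p i ∣ a := by
    intro i
    by_cases h : PP m p i ∣ a <;> simp [x, h]
  have hx : R (S (S0 m p₀) β) *ᵥ x = 0 := by
    funext i
    rw [R_mulVec, Pi.zero_apply]
    by_cases hi : PP m p i ∣ a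
    · have hxi : x i = 1 := (hx1 i).2 hi
      rw [hxi, sum_mul_eq']
      simp only [hx1]
      rw [Finset.sum_congr rfl fun j hj => hS i j (by
          rintro rfl; exact (Finset.mem_filter.1 hj).2 hi),
        ← chi_prod _ _ fun j hj => hsgn i j (by
          rintro rfl; exact (Finset.mem_filter.1 hj).2 hi),
        ← J_prod_left, ← div_eq_prod hm hp ha, chi_eq_zero]
      have hdv : PP m p i ∣ m * ∏ l, p l := hi.trans ha
      refine J_of_isSquare (PP_prime hp i) ?_
        ((hcond _ (PP_prime hp i) hdv).2 hi)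
      intro h
      have h2 : PP m p i * PP m p i ∣ m * ∏ l, p l := by
        rw [← Nat.mul_div_cancel' ha]
        exact mul_dvd_mul hi h
      have := (sqf_PP hm hp) _ h2
      exact (PP_prime hp i).one_lt.ne' (Nat.isUnit_iff.1 this)
    · have hxi : x i = 0 := (z2_cases _).resolve_right fun h => hi ((hx1 i).1 h)
      simp only [hxi, add_zero]
      rw [sum_mul_eq]
      simp only [hx1]
      rw [Finset.sum_congr rfl fun j hj => hS i j (by
          rintro rfl; exact hi (Finset.mem_filter.1 hj).2),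
        ← chi_prod _ _ fun j hj => hsgn i j (by
          rintro rfl; exact hi (Finset.mem_filter.1 hj).2),
        ← J_prod_left, ← dvd_eq_prod hm hp ha, chi_eq_zero]
      have hdv : PP m p i ∣ m * ∏ l, p l := by
        rw [← prod_PP hm]
        exact Finset.dvd_prod_of_mem _ (Finset.mem_univ i)
      exact J_of_isSquare (PP_prime hp i) hi
        ((hcond _ (PP_prime hp i) hdv).1 hi)
  rcases hker x hx with h | h
  · left
    rw [dvd_eq_prod hm hp ha]
    apply Finset.prod_eq_one
    intro i hi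
    have h1 := (hx1 i).2 (Finset.mem_filter.1 hi).2
    rw [h] at h1
    simp at h1
  · right
    have hall : ∀ i, PP m p i ∣ a := fun i => (hx1 i).1 (by rw [h]; rfl)
    conv_lhs => rw [dvd_eq_prod hm hp ha]
    rw [← prod_PP hm]
    apply Finset.prod_congr _ fun _ _ => rfl
    simp [hall]

end

end Vale.Agent.P017.H12
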