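import Vale.Agent.P017.H12.Bil
import Vale.Agent.P017.H12.Flip

/-!
# The first moment of bad vectors
-/

namespace Vale.Agent.P017.H12

open Finset Vale.Agent.P017.H262

variable {k m : ℕ} {j : Fin k → ℕ}

/-- product of a set of primes -/
def eD (D : Finset ℕ) : ℕ := ∏ q ∈ D, q

theorem eD_ne_one {D : Finset ℕ} (hD : ∀ q ∈ D, q.Prime) (h : eD D = 1) : D = ∅ := by
  by_contra hne
  obtain ⟨q, hq⟩ := Finset.nonempty_iff_ne_empty.2 hne
  have h1 : q ∣ eD D := Finset.dvd_prod_of_mem _ hq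
  rw [h] at h1
  exact (hD q hq).one_lt.ne' (Nat.dvd_one.1 h1)

theorem eD_inj {D D' : Finset ℕ} (hD : ∀ q ∈ D, q.Prime) (hD' : ∀ q ∈ D', q.Prime)
    (h : eD D = eD D') : D = D' := by
  have key : ∀ D : Finset ℕ, (∀ q ∈ D, q.Prime) → ∀ q, q.Prime → (q ∣ eD D ↔ q ∈ D) := by
    intro D hD q hq
    constructor
    · intro hd
      obtain ⟨x, hx, hqx⟩ := (Prime.dvd_finsetProd_iff hq.prime _).1 hd
      rwa [(Nat.prime_dvd_prime_iff_eq hq (hD x hx)).1 hqx]
    · exact fun h => Finset.dvd_prod_of_mem _ h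
  ext q
  constructor
  · intro hq
    rw [← key D' hD' q (hD q hq), ← h, key D hD q (hD q hq)]; exact hq
  · intro hq
    rw [← key D hD q (hD' q hq), h, key D' hD' q (hD' q hq)]; exact hq

theorem eD_mul {P D : Finset ℕ} (h : D ⊆ P) : eD D * eD (P \ D) = eD P := by
  unfold eD
  rw [mul_comm, Finset.prod_sdiff h]

theorem J_sgn_PB {l : Fin k} (hj : ∀ l, m < 2 ^ j l) {x : ℕ} (hx : x ∈ PB (j l)) {q : ℕ}
    (hq : q.Prime) (hqm : q ∣ m) (hm : m ≠ 0) : jacobiSym x q = 1 ∨ jacobiSym x q = -1 := by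
  obtain ⟨h1, _, h3, _⟩ := mem_PB hx
  have := Nat.le_of_dvd (Nat.pos_of_ne_zero hm) hqm
  have := hj l
  exact J_sign h3 hq (by omega)

theorem J_eD (x : ℕ) {D : Finset ℕ} (hD : ∀ q ∈ D, q.Prime) :
    jacobiSym x (eD D) = ∏ q ∈ D, jacobiSym x q :=
  J_prod_right D (fun q => q) x fun q hq => (hD q hq).ne_zero

/-- the sum over a box of a product of symbols -/
theorem sum_box (f : Fin k → ℕ) :
    ∑ p ∈ Fintype.piFinset (fun l => PB (j l)), ∏ l, (jacobiSym (p l) (f l) : ℝ) =
      ∏ l, SP (j l) (f l) := by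
  unfold SP
  rw [Finset.prod_univ_sum]

theorem abs_SP (i e : ℕ) : |SP i e| ≤ ((PB i).card : ℝ) := by
  unfold SP
  calc |∑ p ∈ PB i, (jacobiSym p e : ℝ)| ≤ ∑ p ∈ PB i, |(jacobiSym p e : ℝ)| :=
        Finset.abs_sum_le_sum_abs _ _
    _ ≤ ∑ _p ∈ PB i, (1 : ℝ) := Finset.sum_le_sum fun p _ => abs_J' _ _
    _ = _ := by simp

/-- the size of a product of character sums -/
theorem abs_prod_SP (f : Fin k → ℕ) : |∏ l, SP (j l) (f l)| ≤
    (if ∀ l, f l = 1 then ∏ l, ((PB (j l)).card : ℝ) else 0) +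
      ∑ l, (∏ l' ∈ univ.erase l, ((PB (j l')).card : ℝ)) *
        (if f l ≠ 1 then |SP (j l) (f l)| else 0) := by
  rw [Finset.abs_prod]
  by_cases h : ∀ l, f l = 1
  · rw [if_pos h]
    have h1 : ∏ l, |SP (j l) (f l)| ≤ ∏ l, ((PB (j l)).card : ℝ) :=
      Finset.prod_le_prod (fun _ _ => abs_nonneg _) fun l _ => abs_SP _ _
    have h2 : 0 ≤ ∑ l, (∏ l' ∈ univ.erase l, ((PB (j l')).card : ℝ)) *
        (if f l ≠ 1 then |SP (j l) (f l)| else 0) :=
      Finset.sum_nonneg fun l _ => mul_nonneg (Finset.prod_nonneg fun _ _ => by positivity)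
        (by split_ifs <;> positivity)
    linarith
  · rw [if_neg h, zero_add]
    push Not at h
    obtain ⟨l, hl⟩ := h
    have h1 : (∏ l' ∈ univ.erase l, ((PB (j l')).card : ℝ)) *
        (if f l ≠ 1 then |SP (j l) (f l)| else 0) ≤
        ∑ l, (∏ l' ∈ univ.erase l, ((PB (j l')).card : ℝ)) *
        (if f l ≠ 1 then |SP (j l) (f l)| else 0) :=
      Finset.single_le_sum (f := fun l => (∏ l' ∈ univ.erase l, ((PB (j l')).card : ℝ)) *
        (if f l ≠ 1 then |SP (j l) (f l)| else 0))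
        (fun l _ => mul_nonneg (Finset.prod_nonneg fun _ _ => by positivity)
          (by split_ifs <;> positivity)) (Finset.mem_univ l)
    refine le_trans ?_ h1
    rw [if_pos hl, ← Finset.mul_prod_erase univ _ (Finset.mem_univ l), mul_comm]
    exact mul_le_mul_of_nonneg_right
      (Finset.prod_le_prod (fun _ _ => abs_nonneg _) fun l _ => abs_SP _ _) (abs_nonneg _)

/-- the conductor at the place `l` -/
def fl' (P : Finset ℕ) (T : Finset (Fin k)) (D : Finset ℕ) (l : Fin k) : ℕ :=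
  if l ∈ T then eD (P \ D) else eD D

/-- the symbols combine -/
theorem combine {a : ℕ} (hm : m ≠ 0) (ham : a ∣ m) (ha : Squarefree a)
    (hj : ∀ l, m < 2 ^ j l) {p : Fin k → ℕ}
    (hp : p ∈ Fintype.piFinset fun l => PB (j l)) (T : Finset (Fin k)) {D : Finset ℕ}
    (hD : D ⊆ a.primeFactors) :
    (∏ l ∈ T, (jacobiSym (p l) a : ℝ)) * ∏ q ∈ D, (jacobiSym ((∏ l, p l : ℕ) : ℤ) q : ℝ) =
      ∏ l, (jacobiSym (p l) (fl' a.primeFactors T D l) : ℝ) := by
  classical
  rw [Fintype.mem_piFinset] at hp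
  have hDp : ∀ q ∈ D, q.Prime := fun q hq => Nat.prime_of_mem_primeFactors (hD hq)
  have hDp' : ∀ q ∈ a.primeFactors \ D, q.Prime := fun q hq =>
    Nat.prime_of_mem_primeFactors (Finset.mem_sdiff.1 hq).1
  have h1 : ∏ q ∈ D, (jacobiSym ((∏ l, p l : ℕ) : ℤ) q : ℝ) =
      ∏ l, (jacobiSym (p l) (eD D) : ℝ) := by
    have : ∀ q ∈ D, (jacobiSym ((∏ l, p l : ℕ) : ℤ) q : ℝ) = ∏ l, (jacobiSym (p l) q : ℝ) := by
      intro q _
      rw [J_prod_left]; push_cast; rfl
    rw [Finset.prod_congr rfl this, Finset.prod_comm]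
    refine Finset.prod_congr rfl fun l _ => ?_
    rw [J_eD _ hDp]; push_cast; rfl
  have h2 : ∏ l ∈ T, (jacobiSym (p l) a : ℝ) =
      ∏ l, (if l ∈ T then (jacobiSym (p l) a : ℝ) else 1) := by
    rw [Finset.prod_ite_mem, Finset.univ_inter]
  rw [h1, h2, ← Finset.prod_mul_distrib]
  refine Finset.prod_congr rfl fun l _ => ?_
  unfold fl'
  split_ifs with hl
  · have ha' : eD a.primeFactors = a := Nat.prod_primeFactors_of_squarefree ha
    have h3 : jacobiSym (p l) a =
        jacobiSym (p l) (eD D) * jacobiSym (p l) (eD (a.primeFactors \ D)) := by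
      conv_lhs => rw [← ha', ← eD_mul hD]
      exact jacobiSym.mul_right' _ (Finset.prod_ne_zero_iff.2 fun q hq => (hDp q hq).ne_zero)
        (Finset.prod_ne_zero_iff.2 fun q hq => (hDp' q hq).ne_zero)
    have h4 : jacobiSym (p l) (eD D) = 1 ∨ jacobiSym (p l) (eD D) = -1 := by
      rw [J_eD _ hDp]
      exact sign_prod _ _ fun q hq => J_sgn_PB hj (hp l) (hDp q hq)
        ((Nat.dvd_of_mem_primeFactors (hD hq)).trans ham) hm
    rw [h3]
    rcases h4 with h | h <;> rw [h] <;> push_cast <;> ring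
  · rw [one_mul]

theorem ind_half {x : ℤ} (hx : x = 1 ∨ x = -1) :
    (1 / 2 * (1 + (x : ℝ))) = if x = 1 then 1 else 0 := by
  rcases hx with rfl | rfl <;> norm_num

theorem final_arith {a b c c2 t N E A B : ℝ} (ha : 0 ≤ a) (hb1 : b ≤ 1) (hb : 0 ≤ b)
    (hac : a * c = 1) (hac2 : a * 2 = c2) (hE : 0 ≤ E) (hA : A ≤ 2 * N)
    (hB : B ≤ c * (2 * E)) (ht : t = c2 * b * N + 2 * E) :
    a * b * (A + B) ≤ t := by
  rw [ht]
  have h1 : a * b * (A + B) ≤ a * b * (2 * N + c * (2 * E)) :=
    mul_le_mul_of_nonneg_left (add_le_add hA hB) (mul_nonneg ha hb)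
  have h2 : a * b * (2 * N + c * (2 * E)) = c2 * b * N + b * (2 * E) := by
    rw [← hac2]; linear_combination (b * (2 * E)) * hac
  have h3 : b * (2 * E) ≤ 2 * E := mul_le_of_le_one_left (by linarith) hb1
  linarith

open Classical in
/-- the number of tuples for which a given vector is bad -/
theorem count_bad (hk : 0 < k) {a : ℕ} (hm : m ≠ 0) (ham : a ∣ m) (ha : Squarefree a)
    (ha1 : a ≠ 1) (hj : ∀ l, m < 2 ^ j l) (ε : ℕ → ℤ)
    (hε : ∀ q ∈ a.primeFactors, ε q = 1 ∨ ε q = -1) :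
    (((Fintype.piFinset fun l => PB (j l)).filter (fun p => (∀ l, jacobiSym (p l) a = 1) ∧
      ∀ q ∈ a.primeFactors, jacobiSym ((∏ l, p l : ℕ) : ℤ) q * ε q = 1)).card : ℝ) ≤
      (1 / 2 : ℝ) ^ (k - 1) * (1 / 2 : ℝ) ^ a.primeFactors.card *
        (∏ l, ((PB (j l)).card : ℝ)) +
      2 * ∑ l, (∏ l' ∈ univ.erase l, ((PB (j l')).card : ℝ)) *
        ∑ e ∈ a.divisors.erase 1, |SP (j l) e| := by
  set P := a.primeFactors with hP
  have hPp : ∀ q ∈ P, q.Prime := fun q hq => Nat.prime_of_mem_primeFactors hq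
  have haP : eD P = a := Nat.prod_primeFactors_of_squarefree ha
  -- the expansion
  have h1 : (((Fintype.piFinset fun l => PB (j l)).filter (fun p =>
      (∀ l, jacobiSym (p l) a = 1) ∧
      ∀ q ∈ P, jacobiSym ((∏ l, p l : ℕ) : ℤ) q * ε q = 1)).card : ℝ) =
      ∑ T ∈ (univ : Finset (Fin k)).powerset, ∑ D ∈ P.powerset,
        (1 / 2 : ℝ) ^ k * (1 / 2 : ℝ) ^ P.card * (∏ q ∈ D, (ε q : ℝ)) *
          ∏ l, SP (j l) (fl' P T D l) := by
    rw [Finset.card_filter, Nat.cast_sum]
    have h2 : ∀ p ∈ Fintype.piFinset fun l => PB (j l),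
        ((if (∀ l, jacobiSym (p l) a = 1) ∧
          ∀ q ∈ P, jacobiSym ((∏ l, p l : ℕ) : ℤ) q * ε q = 1 then 1 else 0 : ℕ) : ℝ) =
        ∑ T ∈ (univ : Finset (Fin k)).powerset, ∑ D ∈ P.powerset,
          (1 / 2 : ℝ) ^ k * (1 / 2 : ℝ) ^ P.card * (∏ q ∈ D, (ε q : ℝ)) *
          ∏ l, (jacobiSym (p l) (fl' P T D l) : ℝ) := by
      intro p hp
      rw [Nat.cast_ite, Nat.cast_one, Nat.cast_zero]
      have hp' := hp
      rw [Fintype.mem_piFinset] at hp'
      have hsa : ∀ l, jacobiSym (p l) a = 1 ∨ jacobiSym (p l) a = -1 := by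
        intro l
        rw [← haP, J_eD _ hPp]
        exact sign_prod _ _ fun q hq => J_sgn_PB hj (hp' l) (hPp q hq)
          ((Nat.dvd_of_mem_primeFactors hq).trans ham) hm
      have hsq : ∀ q ∈ P, jacobiSym ((∏ l, p l : ℕ) : ℤ) q * ε q = 1 ∨
          jacobiSym ((∏ l, p l : ℕ) : ℤ) q * ε q = -1 := by
        intro q hq
        refine sign_mul ?_ (hε q hq)
        rw [J_prod_left]
        exact sign_prod _ _ fun l _ => J_sgn_PB hj (hp' l) (hPp q hq)
          ((Nat.dvd_of_mem_primeFactors hq).trans ham) hm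
      have h3 : (if (∀ l, jacobiSym (p l) a = 1) ∧
          ∀ q ∈ P, jacobiSym ((∏ l, p l : ℕ) : ℤ) q * ε q = 1 then (1 : ℝ) else 0) =
          (∏ l, (1 / 2 * (1 + (jacobiSym (p l) a : ℝ)))) *
          ∏ q ∈ P, (1 / 2 * (1 + ((jacobiSym ((∏ l, p l : ℕ) : ℤ) q * ε q : ℤ) : ℝ))) := by
        rw [Finset.prod_congr rfl fun l _ => ind_half (hsa l),
          Finset.prod_congr rfl fun q hq => ind_half (hsq q hq),
          Finset.prod_ite_zero, Finset.prod_ite_zero]
        simp only [Finset.mem_univ, true_implies, Finset.prod_const_one]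
        by_cases hA : ∀ l, jacobiSym (p l) a = 1
        · by_cases hB : ∀ q ∈ P, jacobiSym ((∏ l, p l : ℕ) : ℤ) q * ε q = 1
          · rw [if_pos ⟨hA, hB⟩, if_pos hA, if_pos hB, one_mul]
          · rw [if_neg fun h => hB h.2, if_neg hB, mul_zero]
        · rw [if_neg fun h => hA h.1, if_neg hA, zero_mul]
      rw [h3, Finset.prod_mul_distrib, Finset.prod_mul_distrib, Finset.prod_const,
        Finset.prod_const, Finset.prod_one_add, Finset.prod_one_add, Finset.card_univ,
        Fintype.card_fin]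
      rw [mul_mul_mul_comm, Finset.sum_mul_sum, Finset.mul_sum]
      refine Finset.sum_congr rfl fun T _ => ?_
      rw [Finset.mul_sum]
      refine Finset.sum_congr rfl fun D hD => ?_
      rw [mul_assoc _ (∏ q ∈ D, (ε q : ℝ)),
        ← combine hm ham ha hj hp T (Finset.mem_powerset.1 hD)]
      congr 1
      push_cast
      rw [Finset.prod_mul_distrib]
      ring
    rw [Finset.sum_congr rfl h2, Finset.sum_comm]
    refine Finset.sum_congr rfl fun T _ => ?_
    rw [Finset.sum_comm]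
    refine Finset.sum_congr rfl fun D _ => ?_
    rw [← Finset.mul_sum, sum_box]
  rw [h1]
  -- term by term
  set N : ℝ := ∏ l, ((PB (j l)).card : ℝ) with hN
  set W : Fin k → ℝ := fun l => ∏ l' ∈ univ.erase l, ((PB (j l')).card : ℝ) with hW
  set s : Fin k → ℕ → ℝ := fun l e => if e ≠ 1 then |SP (j l) e| else 0 with hs
  have hW0 : ∀ l, 0 ≤ W l := fun l => Finset.prod_nonneg fun _ _ => by positivity
  have hs0 : ∀ l e, 0 ≤ s l e := fun l e => by simp only [hs]; split_ifs <;> positivity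
  have hN0 : 0 ≤ N := Finset.prod_nonneg fun _ _ => by positivity
  have h4 : ∀ T ∈ (univ : Finset (Fin k)).powerset, ∀ D ∈ P.powerset,
      (1 / 2 : ℝ) ^ k * (1 / 2 : ℝ) ^ P.card * (∏ q ∈ D, (ε q : ℝ)) *
          ∏ l, SP (j l) (fl' P T D l) ≤
      (1 / 2 : ℝ) ^ k * (1 / 2 : ℝ) ^ P.card *
        ((if (T = ∅ ∧ D = ∅) ∨ (T = univ ∧ D = P) then N else 0) +
        ∑ l, W l * (s l (eD D) + s l (eD (P \ D)))) := by
    intro T _ D hD
    rw [Finset.mem_powerset] at hD
    have hDp : ∀ q ∈ D, q.Prime := fun q hq => hPp q (hD hq)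
    have hDp' : ∀ q ∈ P \ D, q.Prime := fun q hq => hPp q (Finset.mem_sdiff.1 hq).1
    rw [mul_assoc ((1 / 2 : ℝ) ^ k * (1 / 2 : ℝ) ^ P.card)]
    refine mul_le_mul_of_nonneg_left ?_ (by positivity)
    have h5 : |∏ q ∈ D, (ε q : ℝ)| ≤ 1 := by
      rw [Finset.abs_prod]
      refine Finset.prod_le_one (fun _ _ => abs_nonneg _) fun q hq => ?_
      rcases hε q (hD hq) with h | h <;> rw [h] <;> simp
    refine (le_abs_self _).trans ?_
    rw [abs_mul]
    refine (mul_le_of_le_one_left (abs_nonneg _) h5).trans ?_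
    refine (abs_prod_SP _).trans (add_le_add ?_ (Finset.sum_le_sum fun l _ =>
      mul_le_mul_of_nonneg_left ?_ (hW0 l)))
    · by_cases hall : ∀ l, fl' P T D l = 1
      · rw [if_pos hall]
        have hPne : P ≠ ∅ := by
          intro h
          apply ha1
          rw [← haP, h]; rfl
        have hT : (T = ∅ ∧ D = ∅) ∨ (T = univ ∧ D = P) := by
          have hin : ∀ l ∈ T, D = P := by
            intro l hl
            have := hall l
            rw [fl', if_pos hl] at this
            exact Finset.Subset.antisymm hD (Finset.sdiff_eq_empty_iff_subset.1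
              (eD_ne_one hDp' this))
          have hout : ∀ l ∉ T, D = ∅ := by
            intro l hl
            have := hall l
            rw [fl', if_neg hl] at this
            exact eD_ne_one hDp this
          by_cases h0 : (⟨0, hk⟩ : Fin k) ∈ T
          · right
            refine ⟨?_, hin _ h0⟩
            rw [Finset.eq_univ_iff_forall]
            intro l
            by_contra hl
            exact hPne ((hin _ h0).symm.trans (hout l hl))
          · left
            refine ⟨?_, hout _ h0⟩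
            rw [Finset.eq_empty_iff_forall_notMem]
            intro l hl
            exact hPne ((hin l hl).symm.trans (hout _ h0))
        rw [if_pos hT]
      · rw [if_neg hall]
        split_ifs
        · exact hN0
        · exact le_refl 0
    · have h6 := hs0 l (eD D)
      have h7 := hs0 l (eD (P \ D))
      unfold fl'
      split_ifs with h8 h9 h9
      · have : s l (eD (P \ D)) = |SP (j l) (eD (P \ D))| := if_pos h9
        linarith
      · linarith
      · have : s l (eD D) = |SP (j l) (eD D)| := if_pos h9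
        linarith
      · linarith
  refine (Finset.sum_le_sum fun T hT => Finset.sum_le_sum fun D hD => h4 T hT D hD).trans ?_
  -- the two parts
  have hk2 : (1 / 2 : ℝ) ^ k * 2 ^ k = 1 := by rw [← mul_pow]; norm_num
  have hP1 : (1 / 2 : ℝ) ^ P.card ≤ 1 := pow_le_one₀ (by norm_num) (by norm_num)
  have h8 : ∑ T ∈ (univ : Finset (Fin k)).powerset, ∑ D ∈ P.powerset,
      (if (T = ∅ ∧ D = ∅) ∨ (T = univ ∧ D = P) then N else 0) ≤ 2 * N := by
    rw [← Finset.sum_product']
    calc _ ≤ ∑ z ∈ (univ : Finset (Fin k)).powerset ×ˢ P.powerset,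
          ((if z = (∅, ∅) then N else 0) + (if z = (univ, P) then N else 0)) := by
          refine Finset.sum_le_sum fun z _ => ?_
          have e1 : z = (∅, ∅) ↔ z.1 = ∅ ∧ z.2 = ∅ := Prod.ext_iff
          have e2 : z = (univ, P) ↔ z.1 = univ ∧ z.2 = P := Prod.ext_iff
          by_cases h1 : z.1 = ∅ ∧ z.2 = ∅
          · rw [if_pos (Or.inl h1), if_pos (e1.2 h1)]
            have : (0 : ℝ) ≤ if z = (univ, P) then N else 0 := by
              split_ifs
              · exact hN0
              · exact le_refl _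
            linarith
          · by_cases h2 : z.1 = univ ∧ z.2 = P
            · rw [if_pos (Or.inr h2), if_neg fun h => h1 (e1.1 h), if_pos (e2.2 h2), zero_add]
            · rw [if_neg fun h => h.elim h1 h2, if_neg fun h => h1 (e1.1 h),
                if_neg fun h => h2 (e2.1 h), add_zero]
      _ ≤ 2 * N := by
          rw [Finset.sum_add_distrib, Finset.sum_ite_eq', Finset.sum_ite_eq']
          have : ∀ (c : Prop) [Decidable c], (if c then N else 0) ≤ N := by
            intro c _; split_ifs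
            · exact le_refl _
            · exact hN0
          linarith [this ((∅, ∅) ∈ (univ : Finset (Fin k)).powerset ×ˢ P.powerset),
            this ((univ, P) ∈ (univ : Finset (Fin k)).powerset ×ˢ P.powerset)]
  have h9 : ∀ l, ∑ D ∈ P.powerset, s l (eD D) ≤ ∑ e ∈ a.divisors.erase 1, |SP (j l) e| := by
    intro l
    have hinj : Set.InjOn eD (P.powerset : Set (Finset ℕ)) := by
      intro D hD D' hD' h
      have hD1 := Finset.mem_powerset.1 (Finset.mem_coe.1 hD)
      have hD2 := Finset.mem_powerset.1 (Finset.mem_coe.1 hD')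
      exact eD_inj (fun q hq => hPp q (hD1 hq)) (fun q hq => hPp q (hD2 hq)) h
    rw [← Finset.sum_image (f := s l) hinj]
    have hsub : P.powerset.image eD ⊆ a.divisors := by
      intro e he
      obtain ⟨D, hD, rfl⟩ := Finset.mem_image.1 he
      rw [Nat.mem_divisors]
      refine ⟨?_, ha.ne_zero⟩
      rw [← haP, ← eD_mul (Finset.mem_powerset.1 hD)]
      exact Dvd.intro _ rfl
    calc ∑ e ∈ P.powerset.image eD, s l e ≤ ∑ e ∈ a.divisors, s l e :=
          Finset.sum_le_sum_of_subset_of_nonneg hsub fun e _ _ => hs0 l e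
      _ = ∑ e ∈ a.divisors.erase 1, |SP (j l) e| := by
          rw [← Finset.add_sum_erase a.divisors (s l) (Nat.one_mem_divisors.2 ha.ne_zero)]
          have : s l 1 = 0 := by simp [hs]
          rw [this, zero_add]
          refine Finset.sum_congr rfl fun e he => ?_
          simp only [hs]
          rw [if_pos (Finset.mem_erase.1 he).1]
  have h10 : ∀ l, ∑ D ∈ P.powerset, s l (eD (P \ D)) = ∑ D ∈ P.powerset, s l (eD D) := by
    intro l
    refine Finset.sum_nbij' (fun D => P \ D) (fun D => P \ D) ?_ ?_ ?_ ?_ ?_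
    · intro D _; exact Finset.mem_powerset.2 Finset.sdiff_subset
    · intro D _; exact Finset.mem_powerset.2 Finset.sdiff_subset
    · intro D hD; exact Finset.sdiff_sdiff_eq_self (Finset.mem_powerset.1 hD)
    · intro D hD; exact Finset.sdiff_sdiff_eq_self (Finset.mem_powerset.1 hD)
    · intro D _; rfl
  have h11 : ∑ T ∈ (univ : Finset (Fin k)).powerset, ∑ D ∈ P.powerset,
      ∑ l, W l * (s l (eD D) + s l (eD (P \ D))) ≤
      2 ^ k * (2 * ∑ l, W l * ∑ e ∈ a.divisors.erase 1, |SP (j l) e|) := by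
    rw [Finset.sum_const, Finset.card_powerset, Finset.card_univ, Fintype.card_fin,
      nsmul_eq_mul]
    push_cast
    refine mul_le_mul_of_nonneg_left ?_ (by positivity)
    rw [Finset.sum_comm, Finset.mul_sum]
    refine Finset.sum_le_sum fun l _ => ?_
    rw [← Finset.mul_sum, Finset.sum_add_distrib, h10]
    have := mul_le_mul_of_nonneg_left (h9 l) (hW0 l)
    linarith
  have h12 : ∑ T ∈ (univ : Finset (Fin k)).powerset, ∑ D ∈ P.powerset,
      (1 / 2 : ℝ) ^ k * (1 / 2 : ℝ) ^ P.card *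
        ((if (T = ∅ ∧ D = ∅) ∨ (T = univ ∧ D = P) then N else 0) +
        ∑ l, W l * (s l (eD D) + s l (eD (P \ D)))) =
      (1 / 2 : ℝ) ^ k * (1 / 2 : ℝ) ^ P.card *
        (∑ T ∈ (univ : Finset (Fin k)).powerset, ∑ D ∈ P.powerset,
          (if (T = ∅ ∧ D = ∅) ∨ (T = univ ∧ D = P) then N else 0) +
        ∑ T ∈ (univ : Finset (Fin k)).powerset, ∑ D ∈ P.powerset,
          ∑ l, W l * (s l (eD D) + s l (eD (P \ D)))) := by
    rw [← Finset.sum_add_distrib, Finset.mul_sum]
    refine Finset.sum_congr rfl fun T _ => ?_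
    rw [← Finset.sum_add_distrib, Finset.mul_sum]
  rw [h12]
  have hE0 : 0 ≤ ∑ l, W l * ∑ e ∈ a.divisors.erase 1, |SP (j l) e| :=
    Finset.sum_nonneg fun l _ => mul_nonneg (hW0 l) (Finset.sum_nonneg fun _ _ => abs_nonneg _)
  have h13 : (1 / 2 : ℝ) ^ k * 2 = (1 / 2 : ℝ) ^ (k - 1) := by
    obtain ⟨k', rfl⟩ : ∃ k', k = k' + 1 := ⟨k - 1, by omega⟩
    rw [Nat.add_sub_cancel, pow_succ]; ring
  exact final_arith (by positivity) hP1 (by positivity) hk2 h13 hE0 h8 h11 rfl

theorem cop_div {m q : ℕ} (hm : Squarefree m) (hqm : q ∣ m) : Nat.Coprime (m / q) q := by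
  have h : Squarefree (m / q * q) := by rwa [Nat.div_mul_cancel hqm]
  exact Nat.coprime_of_squarefree_mul h

theorem cop_of_dvd {m a q : ℕ} (hm : Squarefree m) (ham : a ∣ m) (hqa : q ∣ a) :
    Nat.Coprime (m / a) q :=
  Nat.Coprime.of_dvd_right hqa (cop_div hm ham)

theorem J_sign_cop {x y : ℕ} (h : Nat.Coprime x y) : jacobiSym x y = 1 ∨ jacobiSym x y = -1 := by
  apply jacobiSym.eq_one_or_neg_one
  rw [Int.gcd_natCast_natCast]
  exact h

open Classical in
theorem count_R (hk : 0 < k) {a : ℕ} (hm : Squarefree m) (ham : a ∣ m)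
    (ha1 : a ≠ 1) (hj : ∀ l, m < 2 ^ j l) :
    (((Fintype.piFinset fun l => PB (j l)).filter (fun p => RBad m p a)).card : ℝ) ≤
      (if ∀ q ∈ (m / a).primeFactors, jacobiSym a q = 1 then
        (1 / 2 : ℝ) ^ (k - 1) * (1 / 2 : ℝ) ^ a.primeFactors.card *
        (∏ l, ((PB (j l)).card : ℝ)) else 0) +
      2 * ∑ l, (∏ l' ∈ univ.erase l, ((PB (j l')).card : ℝ)) *
        ∑ e ∈ a.divisors.erase 1, |SP (j l) e| := by
  have hE0 : 0 ≤ ∑ l, (∏ l' ∈ univ.erase l, ((PB (j l')).card : ℝ)) *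
        ∑ e ∈ a.divisors.erase 1, |SP (j l) e| :=
    Finset.sum_nonneg fun l _ => mul_nonneg (Finset.prod_nonneg fun _ _ => by positivity)
      (Finset.sum_nonneg fun _ _ => abs_nonneg _)
  by_cases h : ∀ q ∈ (m / a).primeFactors, jacobiSym a q = 1
  · rw [if_pos h]
    refine le_trans ?_ (count_bad hk hm.ne_zero ham (hm.squarefree_of_dvd ham) ha1 hj
      (fun q => jacobiSym (m / a : ℕ) q) fun q hq => J_sign_cop
        (cop_of_dvd hm ham (Nat.dvd_of_mem_primeFactors hq)))
    refine Nat.cast_le.2 (Finset.card_le_card fun p hp => ?_)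
    obtain ⟨hp1, hp2, hp3, hp4⟩ := Finset.mem_filter.1 hp
    refine Finset.mem_filter.2 ⟨hp1, hp2, fun q hq => ?_⟩
    have := hp4 q hq
    rwa [Nat.cast_mul, jacobiSym.mul_left] at this
  · rw [if_neg h, zero_add]
    have : ((Fintype.piFinset fun l => PB (j l)).filter (fun p => RBad m p a)) = ∅ :=
      Finset.filter_eq_empty_iff.2 fun p _ hR => h hR.2.1
    rw [this]
    simp only [Finset.card_empty, Nat.cast_zero]
    linarith

open Classical in
theorem count_L (hk : 0 < k) {a : ℕ} (hm : Squarefree m) (ham : a ∣ m)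
    (ha1 : a ≠ 1) (hj : ∀ l, m < 2 ^ j l) :
    (((Fintype.piFinset fun l => PB (j l)).filter (fun p => LBad m p a)).card : ℝ) ≤
      (if ∀ q ∈ (m / a).primeFactors, jacobiSym q a = 1 then
        (1 / 2 : ℝ) ^ (k - 1) * (1 / 2 : ℝ) ^ a.primeFactors.card *
        (∏ l, ((PB (j l)).card : ℝ)) else 0) +
      2 * ∑ l, (∏ l' ∈ univ.erase l, ((PB (j l')).card : ℝ)) *
        ∑ e ∈ a.divisors.erase 1, |SP (j l) e| := by
  have hE0 : 0 ≤ ∑ l, (∏ l' ∈ univ.erase l, ((PB (j l')).card : ℝ)) *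
        ∑ e ∈ a.divisors.erase 1, |SP (j l) e| :=
    Finset.sum_nonneg fun l _ => mul_nonneg (Finset.prod_nonneg fun _ _ => by positivity)
      (Finset.sum_nonneg fun _ _ => abs_nonneg _)
  by_cases h : ∀ q ∈ (m / a).primeFactors, jacobiSym q a = 1
  · rw [if_pos h]
    have hasq := hm.squarefree_of_dvd ham
    refine le_trans ?_ (count_bad hk hm.ne_zero ham hasq ha1 hj
      (fun q => jacobiSym (m / q : ℕ) q * jacobiSym q (a / q)) fun q hq => sign_mul
        (J_sign_cop (cop_div hm ((Nat.dvd_of_mem_primeFactors hq).trans ham)))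
        (J_sign_cop (cop_div hasq (Nat.dvd_of_mem_primeFactors hq)).symm))
    refine Nat.cast_le.2 (Finset.card_le_card fun p hp => ?_)
    obtain ⟨hp1, hp2, hp3, hp4⟩ := Finset.mem_filter.1 hp
    refine Finset.mem_filter.2 ⟨hp1, hp2, fun q hq => ?_⟩
    have := hp4 q hq
    rwa [Nat.cast_mul, jacobiSym.mul_left, mul_assoc] at this
  · rw [if_neg h, zero_add]
    have : ((Fintype.piFinset fun l => PB (j l)).filter (fun p => LBad m p a)) = ∅ :=
      Finset.filter_eq_empty_iff.2 fun p _ hR => h hR.2.1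
    rw [this]
    simp only [Finset.card_empty, Nat.cast_zero]
    linarith

/-- **[C2]** -/
theorem firstMoment : FirstMomentStmt := by
  classical
  intro k m j hk hm _ hj
  set N : ℝ := ∏ l, ((PB (j l)).card : ℝ) with hN
  set E : ℕ → ℝ := fun a => ∑ l, (∏ l' ∈ univ.erase l, ((PB (j l')).card : ℝ)) *
        ∑ e ∈ a.divisors.erase 1, |SP (j l) e| with hE
  have hE0 : ∀ a, 0 ≤ E a := fun a =>
    Finset.sum_nonneg fun l _ => mul_nonneg (Finset.prod_nonneg fun _ _ => by positivity)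
      (Finset.sum_nonneg fun _ _ => abs_nonneg _)
  -- the union bound
  have h1 : (((Fintype.piFinset fun l => PB (j l)).filter (fun p => ¬ Good m p)).card : ℝ) ≤
      ∑ a ∈ m.divisors.erase 1,
        ((((Fintype.piFinset fun l => PB (j l)).filter (fun p => RBad m p a)).card : ℝ) +
        (((Fintype.piFinset fun l => PB (j l)).filter (fun p => LBad m p a)).card : ℝ)) := by
    have hsub : (Fintype.piFinset fun l => PB (j l)).filter (fun p => ¬ Good m p) ⊆
        (m.divisors.erase 1).biUnion fun a =>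
          ((Fintype.piFinset fun l => PB (j l)).filter (fun p => RBad m p a)) ∪
          ((Fintype.piFinset fun l => PB (j l)).filter (fun p => LBad m p a)) := by
      intro p hp
      obtain ⟨hp1, hp2⟩ := Finset.mem_filter.1 hp
      unfold Good at hp2
      push Not at hp2
      obtain ⟨a, ha, ha1, hab⟩ := hp2
      refine Finset.mem_biUnion.2 ⟨a, Finset.mem_erase.2 ⟨ha1, ha⟩, ?_⟩
      rw [Finset.mem_union, Finset.mem_filter, Finset.mem_filter]
      by_cases hR : RBad m p a
      · exact Or.inl ⟨hp1, hR⟩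
      · exact Or.inr ⟨hp1, hab hR⟩
    have h2 := (Finset.card_le_card hsub).trans Finset.card_biUnion_le
    refine (Nat.cast_le.2 h2).trans ?_
    rw [Nat.cast_sum]
    refine Finset.sum_le_sum fun a _ => ?_
    rw [← Nat.cast_add]
    exact Nat.cast_le.2 (Finset.card_union_le _ _)
  refine h1.trans ?_
  have h2 : ∑ a ∈ m.divisors.erase 1,
        ((((Fintype.piFinset fun l => PB (j l)).filter (fun p => RBad m p a)).card : ℝ) +
        (((Fintype.piFinset fun l => PB (j l)).filter (fun p => LBad m p a)).card : ℝ)) ≤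
      ∑ a ∈ m.divisors.erase 1,
        (((if ∀ q ∈ (m / a).primeFactors, jacobiSym a q = 1 then
          (1 / 2 : ℝ) ^ (k - 1) * (1 / 2 : ℝ) ^ a.primeFactors.card * N else 0) + 2 * E a) +
        ((if ∀ q ∈ (m / a).primeFactors, jacobiSym q a = 1 then
          (1 / 2 : ℝ) ^ (k - 1) * (1 / 2 : ℝ) ^ a.primeFactors.card * N else 0) + 2 * E a)) := by
    refine Finset.sum_le_sum fun a ha => ?_
    obtain ⟨ha1, ha⟩ := Finset.mem_erase.1 ha
    exact add_le_add (count_R hk hm (Nat.dvd_of_mem_divisors ha) ha1 hj)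
      (count_L hk hm (Nat.dvd_of_mem_divisors ha) ha1 hj)
  refine h2.trans ?_
  have hG : ∀ (c : ℕ → Prop) [DecidablePred c], c 1 →
      ∑ a ∈ m.divisors.erase 1, (if c a then
        (1 / 2 : ℝ) ^ (k - 1) * (1 / 2 : ℝ) ^ a.primeFactors.card * N else 0) =
      (1 / 2 : ℝ) ^ (k - 1) * N *
        (∑ a ∈ m.divisors.filter c, (1 / 2 : ℝ) ^ a.primeFactors.card - 1) := by
    intro c _ hc
    rw [Finset.sum_filter, ← Finset.add_sum_erase m.divisors _
      (Nat.one_mem_divisors.2 hm.ne_zero), if_pos hc]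
    simp only [Nat.primeFactors_one, Finset.card_empty, pow_zero]
    rw [add_sub_cancel_left, Finset.mul_sum]
    refine Finset.sum_congr rfl fun a _ => ?_
    split_ifs
    · ring
    · ring
  have h3 := hG (fun a => ∀ q ∈ (m / a).primeFactors, jacobiSym a q = 1) (by simp)
  have h4 := hG (fun a => ∀ q ∈ (m / a).primeFactors, jacobiSym q a = 1) (by simp)
  have h5 : ∑ a ∈ m.divisors.erase 1, E a ≤
      ∑ l, (∏ l' ∈ univ.erase l, ((PB (j l')).card : ℝ)) *
        ∑ a ∈ m.divisors, ∑ e ∈ a.divisors.erase 1, |SP (j l) e| := by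
    calc ∑ a ∈ m.divisors.erase 1, E a ≤ ∑ a ∈ m.divisors, E a :=
          Finset.sum_le_sum_of_subset_of_nonneg (Finset.erase_subset _ _) fun a _ _ => hE0 a
      _ = _ := by
          simp only [hE]
          rw [Finset.sum_comm]
          refine Finset.sum_congr rfl fun l _ => ?_
          rw [Finset.mul_sum]
  rw [Finset.sum_add_distrib, Finset.sum_add_distrib, Finset.sum_add_distrib, h3, h4,
    ← Finset.mul_sum]
  have h6 : G m = ∑ a ∈ m.divisors.filter
      (fun a => ∀ q ∈ (m / a).primeFactors, jacobiSym a q = 1),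
      (1 / 2 : ℝ) ^ a.primeFactors.card := by
    unfold G; congr
  have h7 : G' m = ∑ a ∈ m.divisors.filter
      (fun a => ∀ q ∈ (m / a).primeFactors, jacobiSym q a = 1),
      (1 / 2 : ℝ) ^ a.primeFactors.card := by
    unfold G'; congr
  rw [← h6, ← h7]
  nlinarith

end Vale.Agent.P017.H12
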