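import Mathlib

/-!
# Flipping the mutual symbols: linear algebra over `ZMod 2`
-/

namespace Vale.Agent.P017.H12

open Finset Matrix

variable {T : Type*} [Fintype T] [DecidableEq T] {k : ℕ}

/-- the symbol matrix with the mutual symbols of the large primes replaced by `β` -/
def S (S₀ : T ⊕ Fin k → T ⊕ Fin k → ZMod 2) (β : Fin k → Fin k → ZMod 2) :
    T ⊕ Fin k → T ⊕ Fin k → ZMod 2
  | Sum.inr l, Sum.inr l' => β l l'
  | i, j => S₀ i j

/-- the Rédei matrix: zero row sums -/
def R {ι : Type*} [Fintype ι] [DecidableEq ι] (s : ι → ι → ZMod 2) : Matrix ι ι (ZMod 2) :=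
  Matrix.of s + Matrix.diagonal fun i => ∑ j, s i j

theorem R_mulVec {ι : Type*} [Fintype ι] [DecidableEq ι] (s : ι → ι → ZMod 2) (x : ι → ZMod 2)
    (i : ι) : (R s *ᵥ x) i = ∑ j, s i j * (x j + x i) := by
  rw [R, Matrix.add_mulVec, Pi.add_apply, Matrix.mulVec_diagonal]
  simp only [Matrix.mulVec, dotProduct, Matrix.of_apply, mul_add, Finset.sum_add_distrib,
    Finset.sum_mul]

theorem vecMul_R {ι : Type*} [Fintype ι] [DecidableEq ι] (s : ι → ι → ZMod 2) (w : ι → ZMod 2)
    (j : ι) : (w ᵥ* R s) j = ∑ i, w i * s i j + w j * ∑ i, s j i := by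
  rw [R, Matrix.vecMul_add, Pi.add_apply, Matrix.vecMul_diagonal]
  simp only [Matrix.vecMul, dotProduct, Matrix.of_apply]

theorem z2_cases (x : ZMod 2) : x = 0 ∨ x = 1 := by
  revert x; decide

theorem z2_add_eq_one {x y : ZMod 2} (h : x ≠ y) : x + y = 1 := by
  revert x y; decide

theorem z2_self (x : ZMod 2) : x + x = 0 := by
  revert x; decide

omit [Fintype T] [DecidableEq T] in
/-- a subspace of dimension at least two without vectors vanishing on the large primes has a
vector not constant on the large primes -/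
theorem exists_sep (hk : 0 < k) (K : Submodule (ZMod 2) (T ⊕ Fin k → ZMod 2))
    (h0 : ∀ w ∈ K, (∀ l, w (Sum.inr l) = 0) → w = 0) (h2 : 2 ≤ Module.finrank (ZMod 2) K) :
    ∃ w ∈ K, ∃ l l', w (Sum.inr l) ≠ w (Sum.inr l') := by
  by_contra hcon
  push Not at hcon
  let f : K →ₗ[ZMod 2] ZMod 2 := (LinearMap.proj (Sum.inr ⟨0, hk⟩)).comp K.subtype
  have hf : Function.Injective f := by
    rw [← LinearMap.ker_eq_bot, LinearMap.ker_eq_bot']
    intro w hw
    have hw' : (w : T ⊕ Fin k → ZMod 2) (Sum.inr ⟨0, hk⟩) = 0 := hw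
    apply Subtype.ext
    exact h0 w.1 w.2 fun l => (hcon w.1 w.2 l ⟨0, hk⟩).trans hw'
  have := LinearMap.finrank_le_finrank_of_injective hf
  simp only [Module.finrank_self] at this
  omega

/-- two nonconstant functions to `ZMod 2` separate a common pair -/
theorem exists_common {α : Type*} (v w : α → ZMod 2) {a b c d : α} (h : v a ≠ v b)
    (h' : w c ≠ w d) : ∃ l l', v l ≠ v l' ∧ w l ≠ w l' := by
  by_contra hcon
  push Not at hcon
  have key : ∀ x y z : ZMod 2, x ≠ y → z ≠ x → z = y := by decide
  -- all pairs separated by `v` are not separated by `w`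
  have hab := hcon a b h
  -- every point has the same `w` as `a`
  have hall : ∀ x, w x = w a := by
    intro x
    by_cases hx : v x = v a
    · have : v x ≠ v b := by rw [hx]; exact h
      rw [hcon x b this, hab]
    · exact hcon x a hx
  exact h' ((hall c).trans (hall d).symm)

/-- the change of the mutual symbols at the pair `l, l'` -/
def fl (l l' : Fin k) : Fin k → Fin k → ZMod 2 := fun i j =>
  if (i = l ∧ j = l') ∨ (i = l' ∧ j = l) then 1 else 0

theorem fl_symm (l l' i j : Fin k) : fl l l' i j = fl l l' j i := by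
  unfold fl
  congr 1
  apply propext
  tauto

theorem R_flip (S₀ : T ⊕ Fin k → T ⊕ Fin k → ZMod 2) (β : Fin k → Fin k → ZMod 2) {l l' : Fin k}
    (hll : l ≠ l') (x : T ⊕ Fin k → ZMod 2) (i : T ⊕ Fin k) :
    (R (S S₀ (β + fl l l')) *ᵥ x) i = (R (S S₀ β) *ᵥ x) i +
      (if i = Sum.inr l ∨ i = Sum.inr l' then 1 else 0) * (x (Sum.inr l) + x (Sum.inr l')) := by
  rw [R_mulVec, R_mulVec]
  rcases i with t | i
  · simp [S]
  · simp only [Fintype.sum_sum_type, S, Pi.add_apply, add_mul, Finset.sum_add_distrib]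
    rw [← add_assoc]
    congr 1
    by_cases h1 : i = l
    · subst h1
      have : ∀ j, fl i l' i j * (x (Sum.inr j) + x (Sum.inr i)) =
          if j = l' then (x (Sum.inr l') + x (Sum.inr i)) else 0 := by
        intro j
        by_cases hj : j = l'
        · subst hj; simp [fl]
        · have : fl i l' i j = 0 := by
            simp [fl, hj, hll]
          simp [this, hj]
      rw [Finset.sum_congr rfl fun j _ => this j]
      simp [add_comm]
    · by_cases h2 : i = l'
      · subst h2
        have : ∀ j, fl l i i j * (x (Sum.inr j) + x (Sum.inr i)) =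
            if j = l then (x (Sum.inr l) + x (Sum.inr i)) else 0 := by
          intro j
          by_cases hj : j = l
          · subst hj; simp [fl]
          · have : fl l i i j = 0 := by
              simp [fl, hj, h1]
            simp [this, hj]
        rw [Finset.sum_congr rfl fun j _ => this j]
        simp
      · have : ∀ j, fl l l' i j = 0 := by
          intro j; simp [fl, h1, h2]
        simp [this, h1, h2]

/-- **the flip argument** -/
theorem flip_core (hk : 0 < k) (S₀ : T ⊕ Fin k → T ⊕ Fin k → ZMod 2)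
    (hR : ∀ β v, R (S S₀ β) *ᵥ v = 0 → (∀ l, v (Sum.inr l) = 0) → v = 0)
    (hL : ∀ β w, w ᵥ* R (S S₀ β) = 0 → (∀ l, w (Sum.inr l) = 0) → w = 0) :
    ∃ β : Fin k → Fin k → ZMod 2, (∀ l l', β l l' = β l' l) ∧
      ∀ v, R (S S₀ β) *ᵥ v = 0 → v = 0 ∨ v = 1 := by
  classical
  let K : (Fin k → Fin k → ZMod 2) → Submodule (ZMod 2) (T ⊕ Fin k → ZMod 2) :=
    fun β => LinearMap.ker (R (S S₀ β)).mulVecLin
  have hmem : ∀ β v, v ∈ K β ↔ R (S S₀ β) *ᵥ v = 0 := fun β v => by
    simp [K, LinearMap.mem_ker]
  let A : Set (Fin k → Fin k → ZMod 2) := {β | ∀ l l', β l l' = β l' l}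
  have hA : A.Nonempty := ⟨0, fun _ _ => rfl⟩
  obtain ⟨β, hβ, hmin⟩ : ∃ β ∈ A, ∀ β' ∈ A,
      Module.finrank (ZMod 2) (K β) ≤ Module.finrank (ZMod 2) (K β') := by
    have := (A.toFinite).exists_minimalFor (fun β => Module.finrank (ZMod 2) (K β)) A hA
    obtain ⟨β, h1, h2⟩ := this
    exact ⟨β, h1, fun β' hβ' => (le_total _ _).elim id fun h => h2 hβ' h⟩
  refine ⟨β, hβ, ?_⟩
  -- the dimension is at most one
  have hdim : Module.finrank (ZMod 2) (K β) ≤ 1 := by
    by_contra hlt
    push Not at hlt
    -- the left kernel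
    let K' : Submodule (ZMod 2) (T ⊕ Fin k → ZMod 2) := LinearMap.ker (R (S S₀ β))ᵀ.mulVecLin
    have hmem' : ∀ w, w ∈ K' ↔ w ᵥ* R (S S₀ β) = 0 := fun w => by
      simp [K', LinearMap.mem_ker]
    have hK' : Module.finrank (ZMod 2) K' = Module.finrank (ZMod 2) (K β) := by
      have h1 := LinearMap.finrank_range_add_finrank_ker (R (S S₀ β)).mulVecLin
      have h2 := LinearMap.finrank_range_add_finrank_ker (R (S S₀ β))ᵀ.mulVecLin
      have h3 := Matrix.rank_transpose (R (S S₀ β))
      unfold Matrix.rank at h3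
      simp only [K', K]
      omega
    obtain ⟨v, hv, a, b, hab⟩ := exists_sep hk (K β)
      (fun w hw h => hR β w ((hmem β w).1 hw) h) hlt
    obtain ⟨w, hw, c, d, hcd⟩ := exists_sep hk K'
      (fun w hw h => hL β w ((hmem' w).1 hw) h) (by omega)
    obtain ⟨l, l', hv', hw'⟩ := exists_common (fun l => v (Sum.inr l)) (fun l => w (Sum.inr l))
      hab hcd
    have hll : l ≠ l' := by rintro rfl; exact hv' rfl
    have hlt' : K (β + fl l l') < K β := by
      have hkey : ∀ x, x ∈ K (β + fl l l') → x (Sum.inr l) + x (Sum.inr l') = 0 ∧ x ∈ K β := by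
        intro x hx
        have hx1 : ∀ i, (R (S S₀ β) *ᵥ x) i =
            (if i = Sum.inr l ∨ i = Sum.inr l' then 1 else 0) *
              (x (Sum.inr l) + x (Sum.inr l')) := by
          intro i
          have h1 := congrFun ((hmem _ _).1 hx) i
          rw [R_flip S₀ β hll] at h1
          simp only [Pi.zero_apply] at h1
          have : ∀ a b : ZMod 2, a + b = 0 → a = b := by decide
          exact this _ _ h1
        have hw1 : ∑ i, w i * (R (S S₀ β) *ᵥ x) i = 0 := by
          have h1 : (w ᵥ* R (S S₀ β)) ⬝ᵥ x = 0 := by rw [(hmem' w).1 hw, zero_dotProduct]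
          rw [← Matrix.dotProduct_mulVec] at h1
          exact h1
        have hw2 : ∑ i, w i * (R (S S₀ β) *ᵥ x) i =
            (w (Sum.inr l) + w (Sum.inr l')) * (x (Sum.inr l) + x (Sum.inr l')) := by
          have : ∀ i, w i * (R (S S₀ β) *ᵥ x) i =
              (if i = Sum.inr l then w (Sum.inr l) * (x (Sum.inr l) + x (Sum.inr l')) else 0) +
              (if i = Sum.inr l' then w (Sum.inr l') * (x (Sum.inr l) + x (Sum.inr l'))
                else 0) := by
            intro i
            rw [hx1]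
            by_cases h1 : i = Sum.inr l
            · subst h1
              simp [hll]
            · by_cases h2 : i = Sum.inr l'
              · subst h2
                simp [hll.symm]
              · simp [h1, h2]
          rw [Finset.sum_congr rfl fun i _ => this i, Finset.sum_add_distrib]
          simp [add_mul]
        rw [hw1, z2_add_eq_one hw', one_mul] at hw2
        refine ⟨hw2.symm, ?_⟩
        rw [hmem]
        funext i
        rw [hx1, ← hw2]
        simp
      refine lt_of_le_of_ne (fun x hx => (hkey x hx).2) ?_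
      intro heq
      have hvm : v ∈ K (β + fl l l') := heq ▸ hv
      have := (hkey v hvm).1
      rw [z2_add_eq_one hv'] at this
      exact one_ne_zero this
    have h1 := Submodule.finrank_lt_finrank_of_lt hlt'
    have h2 := hmin (β + fl l l') (fun i j => by
      simp only [Pi.add_apply]
      rw [hβ i j, fl_symm])
    omega
  -- conclusion
  have hone : (1 : T ⊕ Fin k → ZMod 2) ∈ K β := by
    rw [hmem]
    funext i
    rw [R_mulVec]
    simp only [Pi.one_apply, Pi.zero_apply]
    have : (1 : ZMod 2) + 1 = 0 := by decide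
    simp [this]
  intro v hv
  have hv' : v ∈ K β := (hmem _ _).2 hv
  have h1ne : (⟨1, hone⟩ : K β) ≠ 0 := by
    intro h
    have := congrArg (fun x : K β => (x : T ⊕ Fin k → ZMod 2) (Sum.inr ⟨0, hk⟩)) h
    simp at this
  have hpos : 0 < Module.finrank (ZMod 2) (K β) :=
    Module.finrank_pos_iff_exists_ne_zero.2 ⟨_, h1ne⟩
  obtain ⟨c, hc⟩ := exists_smul_eq_of_finrank_eq_one (le_antisymm hdim hpos) h1ne ⟨v, hv'⟩
  have hc' : c • (1 : T ⊕ Fin k → ZMod 2) = v := congrArg Subtype.val hc
  rcases z2_cases c with rfl | rfl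
  · left; rw [← hc']; simp
  · right; rw [← hc']; simp

end Vale.Agent.P017.H12
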